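import Crest.Agent.N207.Defs
import Crest.Agent.N207.C.HC

/-!
# Row 207 (helper45): the concrete scalar heat calculus of a Ricci flow
-/

set_option autoImplicit false
set_option linter.unusedSectionVars false

open scoped ContDiff Manifold
open Set

noncomputable section

namespace Crest.Agent.N207

variable {M : Type*} [TopologicalSpace M] [ChartedSpace E4 M] [IsManifold 𝓘(ℝ, E4) ∞ M]
  [T3Space M] [ConnectedSpace M] [MeasurableSpace M] [BorelSpace M]

/-- the scalar data of a Ricci flow -/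
def Flow.hc (F : Flow M) : HC M where
  T := F.T
  S0 u := Sm 4 u
  Sm a b u := SmST 4 u (Icc a b)
  lap t := (F.m t).lap
  gam t := (F.m t).gam
  hh t u := (F.m t).nsq ((F.m t).hess u)
  rh t u := (F.m t).ip (F.m t).ric ((F.m t).hess u)
  R t := (F.m t).scal
  N k t := (F.m t).rm k
  Q k t := (F.m t).rc k
  vol t := (F.m t).vol
  d t := (F.m t).d

namespace Flow

variable (F : Flow M)

theorem hc_T : F.hc.T = F.T := rfl
theorem hc_S0 (u : M → ℝ) : F.hc.S0 u ↔ Sm 4 u := Iff.rfl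
theorem hc_Sm (a b : ℝ) (u : ℝ → M → ℝ) : F.hc.Sm a b u ↔ SmST 4 u (Icc a b) := Iff.rfl
theorem hc_lap (t : ℝ) : F.hc.lap t = (F.m t).lap := rfl
theorem hc_gam (t : ℝ) : F.hc.gam t = (F.m t).gam := rfl
theorem hc_hh (t : ℝ) (u : M → ℝ) : F.hc.hh t u = (F.m t).nsq ((F.m t).hess u) := rfl
theorem hc_rh (t : ℝ) (u : M → ℝ) :
    F.hc.rh t u = (F.m t).ip (F.m t).ric ((F.m t).hess u) := rfl
theorem hc_R (t : ℝ) : F.hc.R t = (F.m t).scal := rfl
theorem hc_N (k : ℕ) (t : ℝ) : F.hc.N k t = (F.m t).rm k := rfl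
theorem hc_Q (k : ℕ) (t : ℝ) : F.hc.Q k t = (F.m t).rc k := rfl
theorem hc_vol (t : ℝ) : F.hc.vol t = (F.m t).vol := rfl
theorem hc_d (t : ℝ) : F.hc.d t = (F.m t).d := rfl
theorem hc_Pf (t : ℝ) : F.hc.Pf t = (F.m t).pf := rfl

end Flow

end Crest.Agent.N207

end
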