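import Crest.Agent.N207.Tens

/-!
# Row 207 (helper44): joint smoothness in coordinates

For a family `CFam G J U` (ANY set of times `J`): all the spatial operators preserve joint
smoothness on `J × U`; for `J` open so do the time derivatives.
-/

set_option autoImplicit false

open scoped ContDiff Topology
open Set Filter
open Crest.GeometryTopology.CoordMetric Crest.GeometryTopology.ChartCurvature
  Crest.GeometryTopology.MetricFamily
open Crest.Agent.R247

noncomputable section

namespace Crest.Agent.N207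

variable {n k : ℕ} {J : Set ℝ} {U : Set (En n)} {G : ℝ → MetricField n}

/-- jointly smooth functions on `J × U` -/
abbrev St (f : ℝ → En n → ℝ) (J : Set ℝ) (U : Set (En n)) : Prop :=
  ContDiffOn ℝ ∞ (fun p : ℝ × En n => f p.1 p.2) (J ×ˢ U)

theorem st_slice {f : ℝ → En n → ℝ} (hf : St f J U) {t : ℝ} (ht : t ∈ J) :
    ContDiffOn ℝ ∞ (f t) U :=
  hf.comp (contDiffOn_const.prodMk contDiffOn_id) fun _ hy => ⟨ht, hy⟩

theorem st_tslice {f : ℝ → En n → ℝ} (hf : St f J U) {y : En n} (hy : y ∈ U) :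
    ContDiffOn ℝ ∞ (fun t => f t y) J :=
  hf.comp (contDiffOn_id.prodMk contDiffOn_const) fun _ ht => ⟨ht, hy⟩

theorem st_const {f : En n → ℝ} (hf : ContDiffOn ℝ ∞ f U) : St (fun _ => f) J U :=
  hf.comp contDiffOn_snd fun _ hp => hp.2

/-- the spatial differential of a jointly smooth map -/
theorem st_fderiv {F : Type*} [NormedAddCommGroup F] [NormedSpace ℝ F] {f : ℝ → En n → F}
    (hU : IsOpen U) (hf : ContDiffOn ℝ ∞ (fun p : ℝ × En n => f p.1 p.2) (J ×ˢ U)) :
    ContDiffOn ℝ ∞ (fun p : ℝ × En n => fderiv ℝ (f p.1) p.2) (J ×ˢ U) := by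
  intro p hp
  have h1 : ContDiffWithinAt ℝ ∞
      (Function.uncurry fun (q : ℝ × En n) (y : En n) => f q.1 y) ((J ×ˢ U) ×ˢ U) (p, p.2) := by
    have h2 : ContDiffOn ℝ ∞ (fun r : (ℝ × En n) × En n => f r.1.1 r.2) ((J ×ˢ U) ×ˢ U) :=
      hf.comp (contDiffOn_fst.fst.prodMk contDiffOn_snd) fun r hr => ⟨hr.1.1, hr.2⟩
    exact h2 _ ⟨hp, hp.2⟩
  have h3 := ContDiffWithinAt.fderivWithin (m := ∞) (g := fun q : ℝ × En n => q.2) h1
    contDiffWithinAt_snd hU.uniqueDiffOn (by simp) hp fun q hq => hq.2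
  refine h3.congr (fun q hq => ?_) ?_
  · exact (fderivWithin_of_isOpen hU hq.2).symm
  · exact (fderivWithin_of_isOpen hU hp.2).symm

theorem st_pderiv {f : ℝ → En n → ℝ} (hU : IsOpen U) (hf : St f J U) (i : Fin n) :
    St (fun t => pderiv i (f t)) J U :=
  (st_fderiv hU hf).clm_apply contDiffOn_const

/-- the time derivative of a jointly smooth function, `J` open -/
theorem st_deriv {f : ℝ → En n → ℝ} (hJ : IsOpen J) (hf : St f J U) :
    St (fun t y => deriv (fun s => f s y) t) J U := by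
  intro p hp
  have h1 : ContDiffWithinAt ℝ ∞
      (Function.uncurry fun (q : ℝ × En n) (s : ℝ) => f s q.2) ((J ×ˢ U) ×ˢ J) (p, p.1) := by
    have h2 : ContDiffOn ℝ ∞ (fun r : (ℝ × En n) × ℝ => f r.2 r.1.2) ((J ×ˢ U) ×ˢ J) :=
      hf.comp (contDiffOn_snd.prodMk contDiffOn_fst.snd) fun r hr => ⟨hr.2, hr.1.2⟩
    exact h2 _ ⟨hp, hp.1⟩
  have h3 := ContDiffWithinAt.fderivWithin_apply (m := ∞) (g := fun q : ℝ × En n => q.1)
    (k := fun _ => (1 : ℝ)) h1 contDiffWithinAt_fst contDiffWithinAt_const hJ.uniqueDiffOn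
    (by simp) hp fun q hq => hq.1
  refine h3.congr (fun q hq => ?_) ?_
  · rw [fderivWithin_of_isOpen hJ hq.1]; rfl
  · rw [fderivWithin_of_isOpen hJ hp.1]; rfl

/-- smoothness of a determinant -/
theorem contDiffOn_det' {X : Type*} [NormedAddCommGroup X] [NormedSpace ℝ X] {S : Set X}
    {A : X → Matrix (Fin n) (Fin n) ℝ} (hA : ∀ i j, ContDiffOn ℝ ∞ (fun x => A x i j) S) :
    ContDiffOn ℝ ∞ (fun x => (A x).det) S := by
  simp only [Matrix.det_apply]
  refine ContDiffOn.sum fun σ _ => ?_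
  have : ContDiffOn ℝ ∞ (fun x => ∏ i, A x (σ i) i) S := contDiffOn_prod fun i _ => hA _ _
  exact this.const_smul _

/-- smoothness of the entries of the inverse matrix -/
theorem contDiffOn_inv' {X : Type*} [NormedAddCommGroup X] [NormedSpace ℝ X] {S : Set X}
    {A : X → Matrix (Fin n) (Fin n) ℝ} (hA : ∀ i j, ContDiffOn ℝ ∞ (fun x => A x i j) S)
    (hd : ∀ x ∈ S, (A x).det ≠ 0) (i j : Fin n) :
    ContDiffOn ℝ ∞ (fun x => (A x)⁻¹ i j) S := by
  have hadj : ContDiffOn ℝ ∞ (fun x => (A x).adjugate i j) S := by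
    simp only [Matrix.adjugate_apply]
    refine contDiffOn_det' fun a b => ?_
    by_cases h : a = j
    · subst h
      simp only [Matrix.updateRow_self]
      exact contDiffOn_const
    · simp only [Matrix.updateRow_ne h]
      exact hA _ _
  refine (((contDiffOn_det' hA).inv hd).mul hadj).congr fun x _ => ?_
  simp only [Matrix.inv_def, Ring.inverse_eq_inv', Matrix.smul_apply, smul_eq_mul]
  rfl

namespace CFam

variable (c : CFam G J U)
include c

theorem riem {t : ℝ} (ht : t ∈ J) : IsRiemannianOn (G t) U :=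
  ⟨c.isOpen, fun i j => st_slice (f := fun t y => G t y i j) (c.sm i j) ht, c.pos t ht⟩

theorem mono {J' : Set ℝ} {U' : Set (En n)} (hJ : J' ⊆ J) (hU' : IsOpen U') (hU : U' ⊆ U) :
    CFam G J' U' :=
  ⟨hU', fun i j => (c.sm i j).mono (prod_mono hJ hU), fun t ht y hy => c.pos t (hJ ht) y (hU hy)⟩

theorem st_det : St (fun t y => (G t y).det) J U :=
  contDiffOn_det' (A := fun p : ℝ × En n => G p.1 p.2) c.sm

theorem st_sqrt_det : St (fun t y => Real.sqrt (G t y).det) J U :=
  c.st_det.sqrt fun p hp => (c.pos p.1 hp.1 p.2 hp.2).det_pos.ne'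

theorem st_inv (i j : Fin n) : St (fun t y => (G t y)⁻¹ i j) J U :=
  contDiffOn_inv' (A := fun p : ℝ × En n => G p.1 p.2) c.sm
    (fun p hp => (c.pos p.1 hp.1 p.2 hp.2).det_pos.ne') i j

theorem st_dG (l i j : Fin n) : St (fun t => pderiv l fun y => G t y i j) J U :=
  st_pderiv (f := fun t y => G t y i j) c.isOpen (c.sm i j) l

theorem st_chris (l i j : Fin n) : St (fun t y => christoffel (G t) y l i j) J U :=
  contDiffOn_const.mul (ContDiffOn.sum fun a _ => (c.st_inv l a).mul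
    (((c.st_dG i j a).add (c.st_dG j i a)).sub (c.st_dG a i j)))

theorem st_riemann (l a i j : Fin n) : St (fun t y => riemann (G t) y l a i j) J U :=
  ((st_pderiv (f := fun t y => christoffel (G t) y l j a) c.isOpen (c.st_chris l j a) i).sub
    (st_pderiv (f := fun t y => christoffel (G t) y l i a) c.isOpen (c.st_chris l i a) j)).add
    (ContDiffOn.sum fun b _ => ((c.st_chris l i b).mul (c.st_chris b j a)).sub
      ((c.st_chris l j b).mul (c.st_chris b i a)))

theorem st_riemannLower (l a i j : Fin n) :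
    St (fun t y => riemannLower (G t) y l a i j) J U :=
  ContDiffOn.sum fun b _ => (c.sm l b).mul (c.st_riemann b a i j)

theorem st_ricci (i j : Fin n) : St (fun t y => ricci (G t) y i j) J U :=
  (((ContDiffOn.sum fun a _ => st_pderiv (f := fun t y => christoffel (G t) y a i j) c.isOpen
      (c.st_chris a i j) a).sub
    (st_pderiv (f := fun t y => ∑ a, christoffel (G t) y a a i) c.isOpen
      (ContDiffOn.sum fun a _ => c.st_chris a a i) j)).add
    (ContDiffOn.sum fun a _ => ContDiffOn.sum fun b _ =>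
      (c.st_chris a a b).mul (c.st_chris b i j))).sub
    (ContDiffOn.sum fun a _ => ContDiffOn.sum fun b _ =>
      (c.st_chris a j b).mul (c.st_chris b a i))

theorem st_scal : St (fun t => scalarCurv (G t)) J U :=
  ContDiffOn.sum fun i _ => ContDiffOn.sum fun j _ => (c.st_inv i j).mul (c.st_ricci i j)

theorem st_gam {f h : ℝ → En n → ℝ} (hf : St f J U) (hh : St h J U) :
    St (fun t => Bo84.gam (G t) (f t) (h t)) J U :=
  ContDiffOn.sum fun i _ => ContDiffOn.sum fun j _ =>
    ((c.st_inv i j).mul (st_pderiv c.isOpen hf i)).mul (st_pderiv c.isOpen hh j)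

theorem st_lap {f : ℝ → En n → ℝ} (hf : St f J U) :
    St (fun t => laplaceBeltrami (G t) (f t)) J U :=
  (contDiffOn_const.div c.st_sqrt_det fun p hp =>
    (Real.sqrt_pos.2 (c.pos p.1 hp.1 p.2 hp.2).det_pos).ne').mul
    (ContDiffOn.sum fun i _ => st_pderiv
      (f := fun t y => Real.sqrt (G t y).det * ∑ j, inverseField (G t) y i j * pderiv j (f t) y)
      c.isOpen (c.st_sqrt_det.mul (ContDiffOn.sum fun j _ =>
        (c.st_inv i j).mul (st_pderiv c.isOpen hf j))) i)

theorem smTT_matT : SmTT (fun t => matT (G t)) J U := fun I => c.sm (I 0) (I 1)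

theorem smTT_ricT : SmTT (fun t => ricT (G t)) J U := fun I => c.st_ricci (I 0) (I 1)

theorem smTT_rmT : SmTT (fun t => rmT (G t)) J U := fun I =>
  c.st_riemannLower (I 0) (I 1) (I 2) (I 3)

theorem st_ip {S T : ℝ → Tn n k} (hS : SmTT S J U) (hT : SmTT T J U) :
    St (fun t => ip (G t) (S t) (T t)) J U :=
  ContDiffOn.sum fun I _ => ContDiffOn.sum fun I' _ =>
    (contDiffOn_prod fun s _ => c.st_inv (I s) (I' s)).mul ((hS I).mul (hT I'))

theorem st_nsq {T : ℝ → Tn n k} (hT : SmTT T J U) : St (fun t => nsq (G t) (T t)) J U :=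
  c.st_ip hT hT

end CFam

/-- a static metric as a constant family -/
theorem cfam_const {g : MetricField n} (hg : IsRiemannianOn g U) (J : Set ℝ) :
    CFam (fun _ => g) J U :=
  ⟨hg.isOpen, fun i j => st_const (hg.contDiffOn i j), fun _ _ y hy => hg.posDef y hy⟩

theorem smTT_const {T : Tn n k} (hT : SmT T U) (J : Set ℝ) : SmTT (fun _ => T) J U :=
  fun I => st_const (hT I)

namespace SmTT

variable {S T : ℝ → Tn n k}

theorem slice (hT : SmTT T J U) {t : ℝ} (ht : t ∈ J) : SmT (T t) U := fun I =>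
  st_slice (f := fun t y => T t y I) (hT I) ht

theorem mono (hT : SmTT T J U) {J' : Set ℝ} {U' : Set (En n)} (hJ : J' ⊆ J) (hU : U' ⊆ U) :
    SmTT T J' U' := fun I => (hT I).mono (prod_mono hJ hU)

theorem congr (hT : SmTT T J U) (h : ∀ t ∈ J, ∀ y ∈ U, S t y = T t y) : SmTT S J U := fun I =>
  (hT I).congr fun p hp => by rw [h p.1 hp.1 p.2 hp.2]

theorem add (hS : SmTT S J U) (hT : SmTT T J U) : SmTT (fun t => S t + T t) J U := fun I =>
  (hS I).add (hT I)

theorem sub (hS : SmTT S J U) (hT : SmTT T J U) : SmTT (fun t => S t - T t) J U := fun I =>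
  (hS I).sub (hT I)

theorem neg (hT : SmTT T J U) : SmTT (fun t => -T t) J U := fun I => (hT I).neg

theorem const_smul (hT : SmTT T J U) (a : ℝ) : SmTT (fun t => a • T t) J U := fun I =>
  contDiffOn_const.mul (hT I)

theorem smT {f : ℝ → En n → ℝ} (hf : St f J U) (hT : SmTT T J U) :
    SmTT (fun t => smT (f t) (T t)) J U := fun I => hf.mul (hT I)

theorem fnT {f : ℝ → En n → ℝ} (hf : St f J U) : SmTT (fun t => fnT (f t)) J U := fun _ => hf

theorem dT {f : ℝ → En n → ℝ} (hU : IsOpen U) (hf : St f J U) :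
    SmTT (fun t => dT (f t)) J U := fun I => st_pderiv hU hf (I 0)

theorem cov (c : CFam G J U) (hT : SmTT T J U) : SmTT (fun t => cov (G t) (T t)) J U := fun I =>
  (st_pderiv (f := fun t y => T t y (Fin.tail I)) c.isOpen (hT _) (I 0)).sub
    (ContDiffOn.sum fun s _ => ContDiffOn.sum fun a _ =>
      (c.st_chris a (I 0) (Fin.tail I s)).mul (hT _))

theorem covN (c : CFam G J U) (hT : SmTT T J U) :
    ∀ j : ℕ, SmTT (fun t => covN (G t) (T t) j) J U
  | 0 => hT
  | j + 1 => (covN c hT j).cov c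

theorem trT {T : ℝ → Tn n (k + 2)} (c : CFam G J U) (hT : SmTT T J U) :
    SmTT (fun t => trT (G t) (T t)) J U := fun _ =>
  ContDiffOn.sum fun a _ => ContDiffOn.sum fun b _ => (c.st_inv a b).mul (hT _)

theorem divT {T : ℝ → Tn n (k + 1)} (c : CFam G J U) (hT : SmTT T J U) :
    SmTT (fun t => divT (G t) (T t)) J U := (hT.cov c).trT c

theorem lapT (c : CFam G J U) (hT : SmTT T J U) : SmTT (fun t => lapT (G t) (T t)) J U :=
  ((hT.cov c).cov c).trT c

theorem conT {T : ℝ → Tn n (k + 1)} (c : CFam G J U) (hS : SmTT S J U) (hT : SmTT T J U) :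
    SmTT (fun t => conT (G t) (S t) (T t)) J U := fun _ =>
  ContDiffOn.sum fun I _ => ContDiffOn.sum fun I' _ =>
    (contDiffOn_prod fun s _ => c.st_inv (I s) (I' s)).mul ((hS I).mul (hT _))

theorem hessT {f : ℝ → En n → ℝ} (c : CFam G J U) (hf : St f J U) :
    SmTT (fun t => hessT (G t) (f t)) J U := (SmTT.dT c.isOpen hf).cov c

theorem dtT (hJ : IsOpen J) (hT : SmTT T J U) : SmTT (dtT T) J U := fun I =>
  st_deriv (f := fun t y => T t y I) hJ (hT I)

theorem DtT (c : CFam G J U) (hJ : IsOpen J) (hT : SmTT T J U) : SmTT (DtT G T) J U := fun I =>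
  (hT.dtT hJ I).add (ContDiffOn.sum fun s _ => ContDiffOn.sum fun a _ =>
    ContDiffOn.sum fun b _ => ((c.st_ricci (I s) a).mul (c.st_inv a b)).mul (hT _))

theorem boxT (c : CFam G J U) (hJ : IsOpen J) (hT : SmTT T J U) : SmTT (boxT G T) J U :=
  fun I => (hT.DtT c hJ I).sub (hT.lapT c I)

/-- pull-back by a static smooth map -/
theorem pullT {V : Set (En n)} {Φ : En n → En n} (hV : IsOpen V) (hΦ : ContDiffOn ℝ ∞ Φ V)
    (hm : ∀ y ∈ V, Φ y ∈ U) (hT : SmTT T J U) : SmTT (fun t => pullT Φ (T t)) J V := by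
  intro I
  refine ContDiffOn.sum fun I' _ => ContDiffOn.mul (contDiffOn_prod fun s _ => ?_) ?_
  · have h1 : ContDiffOn ℝ ∞
        (fun y => fderiv ℝ Φ y (EuclideanSpace.single (I s) (1 : ℝ))) V :=
      (hΦ.fderiv_of_isOpen hV (by simp)).clm_apply contDiffOn_const
    have h2 := (EuclideanSpace.proj (I' s) : En n →L[ℝ] ℝ).contDiff.comp_contDiffOn h1
    exact h2.comp contDiffOn_snd fun p hp => hp.2
  · exact (hT I').comp (contDiffOn_fst.prodMk (hΦ.comp contDiffOn_snd fun p hp => hp.2))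
      fun p hp => ⟨hp.1, hm p.2 hp.2⟩

end SmTT

theorem CFlow.mono (c : CFlow G J U) {J' : Set ℝ} {U' : Set (En n)} (hJ' : IsOpen J')
    (hJ : J' ⊆ J) (hU' : IsOpen U') (hU : U' ⊆ U) : CFlow G J' U' :=
  ⟨c.toCFam.mono hJ hU' hU, hJ', fun t ht y hy => c.rf t (hJ ht) y (hU hy)⟩

end Crest.Agent.N207

end
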