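import Crest.Agent.N207.AI.Nat

/-!
# Row 207 (helper45): static pull-backs of coordinate flows; normalisation `G t 0 = 1`
-/

set_option autoImplicit false

open scoped ContDiff Topology
open Finset Function Filter
open Crest.GeometryTopology.CoordMetric Crest.GeometryTopology.ChartCurvature
  Crest.GeometryTopology.MetricFamily
open Crest.Agent.R202.Tens Crest.Agent.R247.Bo84

noncomputable section

namespace Crest.Agent.N207.AI

variable {n k : ℕ}

/-- the pull-back of a coordinate metric -/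
def plG (Φ : En n → En n) (G : MetricField n) : MetricField n := fun y => Matrix.of fun i j =>
  ∑ a, ∑ b, G (Φ y) a b * (fderiv ℝ Φ y (eb i)) a * (fderiv ℝ Φ y (eb j)) b

lemma pull_plG {G : MetricField n} {Φ : En n → En n} {V W : Set (En n)} (hV : IsOpen V)
    (hG : IsRiemannianOn G W) (hm : ∀ y ∈ V, Φ y ∈ W) (hΦ : ContDiffOn ℝ ∞ Φ V)
    (hi : ∀ y ∈ V, Injective (fderiv ℝ Φ y)) : Pull (plG Φ G) G Φ V W :=
  ⟨hV, hG, hm, hΦ, fun _ _ _ _ => rfl, hi⟩

variable {G G' : ℝ → MetricField n} {J : Set ℝ} {Φ : En n → En n} {U V W : Set (En n)}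

lemma cfam_riem (c : CFam G J U) {t : ℝ} (ht : t ∈ J) : IsRiemannianOn (G t) U :=
  ⟨c.isOpen, fun i j => (c.sm i j).comp (contDiffOn_const.prodMk contDiffOn_id)
    fun _ hy => ⟨ht, hy⟩, c.pos t ht⟩

theorem cfam_pull (c : CFam G J W) (hV : IsOpen V) (hp : ∀ t ∈ J, Pull (G' t) (G t) Φ V W) :
    CFam G' J V := by
  refine ⟨hV, fun i j q hq => ?_, fun t ht => (hp t ht).riem'.posDef⟩
  have p := hp q.1 hq.1
  have h1 : ∀ i a, ContDiffOn ℝ ∞ (fun r : ℝ × En n => (fderiv ℝ Φ r.2 (eb i)) a) (J ×ˢ V) :=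
    fun i a => contDiffOn_apply (((p.smooth.fderiv_of_isOpen hV (by simp)).clm_apply
      contDiffOn_const).comp contDiffOn_snd fun _ hr => hr.2) a
  have h2 : ∀ a b, ContDiffOn ℝ ∞ (fun r : ℝ × En n => G r.1 (Φ r.2) a b) (J ×ˢ V) :=
    fun a b => (c.sm a b).comp (contDiffOn_fst.prodMk (p.smooth.comp contDiffOn_snd
      fun _ hr => hr.2)) fun r hr => ⟨hr.1, p.maps _ hr.2⟩
  have h3 : ContDiffOn ℝ ∞ (fun r : ℝ × En n => ∑ a, ∑ b, G r.1 (Φ r.2) a b *
      (fderiv ℝ Φ r.2 (eb i)) a * (fderiv ℝ Φ r.2 (eb j)) b) (J ×ˢ V) :=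
    ContDiffOn.sum fun a _ => ContDiffOn.sum fun b _ => ((h2 a b).mul (h1 i a)).mul (h1 j b)
  exact (h3.congr fun r hr => (hp r.1 hr.1).pull r.2 hr.2 i j) q hq

theorem cflow_pull (c : CFlow G J W) (hV : IsOpen V) (hp : ∀ t ∈ J, Pull (G' t) (G t) Φ V W) :
    CFlow G' J V := by
  refine ⟨cfam_pull c.toCFam hV hp, c.isOpenJ, fun t ht y hy i j => ?_⟩
  have p := hp t ht
  have h1 := HasDerivAt.fun_sum (u := univ) fun a _ => HasDerivAt.fun_sum (u := univ) fun b _ =>
    ((c.rf t ht (Φ y) (p.maps y hy) a b).mul_const ((fderiv ℝ Φ y (eb i)) a)).mul_const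
      ((fderiv ℝ Φ y (eb j)) b)
  have h2 := p.ricci_pull hy (eb i) (eb j)
  have h3 : ∑ a, ∑ b, ricci (G' t) y a b * (eb i : En n) a * (eb j : En n) b =
      ricci (G' t) y i j := by
    have := evT_single (ricT (G' t) y) ![i, j]
    rw [evT_ricT] at this
    exact this
  rw [h3] at h2
  rw [h2]
  refine (h1.congr_of_eventuallyEq ?_).congr_deriv ?_
  · filter_upwards [c.isOpenJ.mem_nhds ht] with s hs using (hp s hs).pull y hy i j
  · simp only [mul_sum]
    exact sum_congr rfl fun a _ => sum_congr rfl fun b _ => by ring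

theorem smTT_pullT {T : ℝ → Tn n k} (hV : IsOpen V) (hΦ : ContDiffOn ℝ ∞ Φ V)
    (hm : ∀ y ∈ V, Φ y ∈ W) (hT : SmTT T J W) : SmTT (fun s => pullT Φ (T s)) J V := fun _ =>
  contDiffOn_evT (fun I => (hT I).comp (contDiffOn_fst.prodMk (hΦ.comp contDiffOn_snd
      fun _ hr => hr.2)) fun r hr => ⟨hr.1, hm _ hr.2⟩) fun _ =>
    ((hΦ.fderiv_of_isOpen hV (by simp)).clm_apply contDiffOn_const).comp contDiffOn_snd
      fun _ hr => hr.2

lemma hasDerivAt_evT {A : ℝ → Arr n k} {A' : Arr n k} {t : ℝ}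
    (hA : ∀ I, HasDerivAt (fun s => A s I) (A' I) t) (v : Fin k → En n) :
    HasDerivAt (fun s => evT (A s) v) (evT A' v) t :=
  HasDerivAt.fun_sum fun I _ => (hA I).const_mul _

theorem dtT_pullT (Φ : En n → En n) {T : ℝ → Tn n k} {t : ℝ} {y : En n}
    (hT : ∀ I, DifferentiableAt ℝ (fun s => T s (Φ y) I) t) :
    dtT (fun s => pullT Φ (T s)) t y = pullT Φ (dtT T t) y := by
  funext I
  exact (hasDerivAt_evT (fun J => (hT J).hasDerivAt) _).deriv

/-- Uhlenbeck's derivative, evaluated with the help of a frame -/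
lemma evT_DtT {T : ℝ → Tn n k} {t : ℝ} {y : En n} {e : Fin n → En n}
    (h : ∀ i j, (G t y)⁻¹ i j = ∑ a, e a i * e a j) (v : Fin k → En n) :
    evT (DtT G T t y) v = evT (dtT T t y) v +
      ∑ s, ∑ c, evT (ricT (G t) y) ![v s, e c] * evT (T t y) (update v s (e c)) := by
  unfold DtT
  rw [evT_add, evT_sum]
  congr 1
  refine sum_congr rfl fun s _ => ?_
  have h1 : (fun I : Fin k → Fin n => ∑ a, ∑ b,
      ricci (G t) y (I s) a * (G t y)⁻¹ a b * T t y (update I s b)) =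
      fun I => ∑ b, (∑ a, ricci (G t) y (I s) a * (G t y)⁻¹ a b) * T t y (update I s b) := by
    funext I
    rw [sum_comm]
    simp only [sum_mul]
  rw [h1, evT_slot (T t y) v s fun b i => ∑ a, ricci (G t) y i a * (G t y)⁻¹ a b,
    ← evT_update_sum]
  congr 2
  ext m
  rw [WithLp.ofLp_sum, Finset.sum_apply]
  simp only [PiLp.smul_apply, smul_eq_mul, evT_ricT, h, sum_mul, mul_sum, Matrix.cons_val_zero,
    Matrix.cons_val_one]
  conv_rhs => rw [sum_comm]
  refine sum_congr rfl fun b _ => ?_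
  conv_rhs => rw [sum_comm]
  exact sum_congr rfl fun a _ => sum_congr rfl fun c _ => by ring

theorem DtT_pullT {T : ℝ → Tn n k} {t : ℝ} {y : En n} (p : Pull (G' t) (G t) Φ V W) (hy : y ∈ V)
    (hT : ∀ I, DifferentiableAt ℝ (fun s => T s (Φ y) I) t) :
    DtT G' (fun s => pullT Φ (T s)) t y = pullT Φ (DtT G T t) y := by
  obtain ⟨e, he, he'⟩ := exists_frames p hy
  funext I
  rw [← evT_single (DtT G' (fun s => pullT Φ (T s)) t y), pullT, evT_DtT he.inv, evT_DtT he'.inv,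
    dtT_pullT Φ hT, evT_pullT]
  congr 1
  refine sum_congr rfl fun s _ => sum_congr rfl fun c _ => ?_
  rw [evT_pullT, update_comp, ricT_pull p hy, evT_pullT]
  congr 2
  funext r
  fin_cases r <;> rfl

theorem boxT_pullT {T : ℝ → Tn n k} {t : ℝ} {y : En n} (p : Pull (G' t) (G t) Φ V W) (hy : y ∈ V)
    (hT : ∀ I, DifferentiableAt ℝ (fun s => T s (Φ y) I) t) (hT' : SmT (T t) W) :
    boxT G' (fun s => pullT Φ (T s)) t y = pullT Φ (boxT G T t) y := by
  funext I
  have h1 : pullT Φ (boxT G T t) y I =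
      pullT Φ (DtT G T t) y I - pullT Φ (lapT (G t) (T t)) y I := pullT_sub Φ _ _ y I
  rw [h1, ← DtT_pullT p hy hT, ← lapT_pullT p hy hT']
  rfl

/-! ### locality in space-time -/

lemma dtT_congr {T T' : ℝ → Tn n k} {t : ℝ} {y : En n} (h : ∀ᶠ s in 𝓝 t, T s y = T' s y) :
    dtT T t y = dtT T' t y := by
  funext I
  exact EventuallyEq.deriv_eq (by filter_upwards [h] with s hs; rw [hs])

lemma DtT_congr {T T' : ℝ → Tn n k} {t : ℝ} {y : En n} (h : ∀ᶠ s in 𝓝 t, T s y = T' s y) :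
    DtT G T t y = DtT G T' t y := by
  funext I
  simp only [DtT, dtT_congr h, h.self_of_nhds]

lemma boxT_congr {T T' : ℝ → Tn n k} {t : ℝ} {y : En n} (h : ∀ᶠ s in 𝓝 t, T s y = T' s y)
    (h' : T t =ᶠ[𝓝 y] T' t) : boxT G T t y = boxT G T' t y := by
  funext I
  simp only [boxT, DtT_congr h, (lapT_congr (G := G t) EventuallyEq.rfl h').eq_of_nhds]

/-! ### normalisation -/

/-- the linear map sending the standard basis to `e` -/
def linE (e : Fin n → En n) : En n →L[ℝ] En n :=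
  ∑ i, (EuclideanSpace.proj i : En n →L[ℝ] ℝ).smulRight (e i)

lemma linE_apply (e : Fin n → En n) (v : En n) : linE e v = ∑ i, v i • e i := by
  simp [linE]

lemma linE_eb (e : Fin n → En n) (i : Fin n) : linE e (eb i) = e i := by
  rw [linE_apply, sum_eq_single i]
  · simp
  · intro j _ hj
    simp [hj]
  · simp

lemma linE_injective {A : Matrix (Fin n) (Fin n) ℝ} {e : Fin n → En n} (he : IsFrame A e) :
    Injective (linE e) := by
  rw [injective_iff_map_eq_zero]
  intro v hv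
  ext j
  have h : bil A (linE e v) (e j) = v j := by
    rw [linE_apply, map_sum, _root_.sum_apply]
    simp [he.orth]
  rw [← h, hv]
  simp

/-- the affine map `z ↦ y + ∑ zᵢ eᵢ` -/
def aff (y : En n) (e : Fin n → En n) (z : En n) : En n := y + linE e z

lemma aff_zero (y : En n) (e : Fin n → En n) : aff y e 0 = y := by simp [aff]

lemma contDiff_aff (y : En n) (e : Fin n → En n) : ContDiff ℝ ∞ (aff y e) :=
  contDiff_const.add (linE e).contDiff

lemma fderiv_aff (y : En n) (e : Fin n → En n) (z : En n) : fderiv ℝ (aff y e) z = linE e :=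
  ((linE e).hasFDerivAt.const_add y).fderiv

lemma isOpen_aff (hU : IsOpen U) (y : En n) (e : Fin n → En n) : IsOpen (aff y e ⁻¹' U) :=
  hU.preimage (contDiff_aff y e).continuous

lemma pull_aff {g : MetricField n} (hg : IsRiemannianOn g U) {A : Matrix (Fin n) (Fin n) ℝ}
    {e : Fin n → En n} (he : IsFrame A e) (y : En n) :
    Pull (plG (aff y e) g) g (aff y e) (aff y e ⁻¹' U) U :=
  pull_plG (isOpen_aff hg.isOpen y e) hg (fun _ hz => hz) (contDiff_aff y e).contDiffOn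
    fun z _ => by rw [fderiv_aff]; exact linE_injective he

lemma plG_aff_zero {g : MetricField n} {y : En n} {e : Fin n → En n} (he : IsFrame (g y) e) :
    plG (aff y e) g 0 = 1 := by
  ext i j
  rw [plG, Matrix.of_apply, aff_zero, fderiv_aff, linE_eb, linE_eb, ← bil_apply, he.orth,
    Matrix.one_apply]

/-- **static normalisation** -/
theorem exists_norm {g : MetricField n} (hg : IsRiemannianOn g U) {y : En n} (hy : y ∈ U) :
    ∃ (g' : MetricField n) (Φ : En n → En n) (V : Set (En n)), Pull g' g Φ V U ∧ 0 ∈ V ∧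
      Φ 0 = y ∧ g' 0 = 1 := by
  obtain ⟨e, he⟩ := exists_frame hg hy
  refine ⟨_, _, _, pull_aff hg he y, ?_, aff_zero y e, plG_aff_zero he⟩
  rw [Set.mem_preimage, aff_zero]; exact hy

/-- **normalisation of a family** -/
theorem cfam_norm (c : CFam G J U) {t : ℝ} (ht : t ∈ J) {y : En n} (hy : y ∈ U) :
    ∃ (G' : ℝ → MetricField n) (Φ : En n → En n) (V : Set (En n)), CFam G' J V ∧
      (∀ s ∈ J, Pull (G' s) (G s) Φ V U) ∧ 0 ∈ V ∧ Φ 0 = y ∧ G' t 0 = 1 := by
  obtain ⟨e, he⟩ := exists_frame (cfam_riem c ht) hy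
  have hp : ∀ s ∈ J, Pull (plG (aff y e) (G s)) (G s) (aff y e) (aff y e ⁻¹' U) U :=
    fun s hs => pull_aff (cfam_riem c hs) he y
  refine ⟨_, _, _, cfam_pull c (isOpen_aff c.isOpen y e) hp, hp, ?_, aff_zero y e,
    plG_aff_zero he⟩
  rw [Set.mem_preimage, aff_zero]; exact hy

/-- **normalisation of a flow** -/
theorem cflow_norm (c : CFlow G J U) {t : ℝ} (ht : t ∈ J) {y : En n} (hy : y ∈ U) :
    ∃ (G' : ℝ → MetricField n) (Φ : En n → En n) (V : Set (En n)), CFlow G' J V ∧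
      (∀ s ∈ J, Pull (G' s) (G s) Φ V U) ∧ 0 ∈ V ∧ Φ 0 = y ∧ G' t 0 = 1 := by
  obtain ⟨G', Φ, V, c', hp, h⟩ := cfam_norm c.toCFam ht hy
  exact ⟨G', Φ, V, cflow_pull c c'.isOpen hp, hp, h⟩

end Crest.Agent.N207.AI

end
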