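import Crest.Agent.N207.AI.EvoS
import Crest.Agent.N207.AI.Lin
import Crest.Agent.N207.AI.GlobT

/-!
# Row 207 (helper45): evolution equations in coordinates; removal of the normalisation
-/

set_option autoImplicit false

open scoped ContDiff Topology
open Finset Function Filter
open Crest.GeometryTopology.CoordMetric Crest.GeometryTopology.ChartCurvature
  Crest.GeometryTopology.MetricFamily
open Crest.Agent.R202.Tens Crest.Agent.R247

noncomputable section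

namespace Crest.Agent.N207.AI

variable {n : ℕ}

/-- `|∇ᵏ Rm|²` in coordinates -/
abbrev cN (G : MetricField n) (k : ℕ) : En n → ℝ := nsq G (covN G (rmT G) k)

/-- `|∇ᵏ Ric|²` in coordinates -/
abbrev cQ (G : MetricField n) (k : ℕ) : En n → ℝ := nsq G (covN G (ricT G) k)

/-- Shi's inequality for `|∇ᵏ Rm|²` at `(t, y)` -/
def ShiN (C : ℝ) (k : ℕ) (G : ℝ → MetricField n) (t : ℝ) (y : En n) : Prop :=
  |deriv (fun s => cN (G s) k y) t - laplaceBeltrami (G t) (cN (G t) k) y +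
    2 * cN (G t) (k + 1) y| ≤
    C * ∑ i ∈ range (k + 1), √(cN (G t) i y) * √(cN (G t) (k - i) y) * √(cN (G t) k y)

/-- Shi's inequality for `|∇ᵏ Ric|²` at `(t, y)` -/
def ShiQ (C : ℝ) (k : ℕ) (G : ℝ → MetricField n) (t : ℝ) (y : En n) : Prop :=
  |deriv (fun s => cQ (G s) k y) t - laplaceBeltrami (G t) (cQ (G t) k) y +
    2 * cQ (G t) (k + 1) y| ≤
    C * ∑ i ∈ range (k + 1), √(cN (G t) i y) * √(cQ (G t) (k - i) y) * √(cQ (G t) k y)

/-- the evolution equations in coordinates -/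
structure CEvo (n : ℕ) : Prop where
  gam : ∀ {G : ℝ → MetricField n} {J : Set ℝ} {U : Set (En n)}, CFlow G J U →
    ∀ {u : ℝ → En n → ℝ}, St u J U → ∀ t ∈ J, ∀ y ∈ U,
    deriv (fun s => Bo84.gam (G s) (u s) (u s) y) t =
      laplaceBeltrami (G t) (Bo84.gam (G t) (u t) (u t)) y +
        2 * Bo84.gam (G t) (u t)
          (fun z => deriv (fun s => u s z) t - laplaceBeltrami (G t) (u t) z) y -
        2 * nsq (G t) (hessT (G t) (u t)) y
  lap : ∀ {G : ℝ → MetricField n} {J : Set ℝ} {U : Set (En n)}, CFlow G J U →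
    ∀ {u : ℝ → En n → ℝ}, St u J U → ∀ t ∈ J, ∀ y ∈ U,
    deriv (fun s => laplaceBeltrami (G s) (u s) y) t =
      laplaceBeltrami (G t) (fun z => deriv (fun s => u s z) t) y +
        2 * ip (G t) (ricT (G t)) (hessT (G t) (u t)) y
  scal : ∀ {G : ℝ → MetricField n} {J : Set ℝ} {U : Set (En n)}, CFlow G J U →
    ∀ t ∈ J, ∀ y ∈ U, deriv (fun s => scalarCurv (G s) y) t =
      laplaceBeltrami (G t) (scalarCurv (G t)) y + 2 * nsq (G t) (ricT (G t)) y
  rm : ∀ k, ∃ C, 0 ≤ C ∧ ∀ {G : ℝ → MetricField n} {J : Set ℝ} {U : Set (En n)}, CFlow G J U →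
    ∀ t ∈ J, ∀ y ∈ U, G t y = 1 → ShiN C k G t y
  rc : ∀ k, ∃ C, 0 ≤ C ∧ ∀ {G : ℝ → MetricField n} {J : Set ℝ} {U : Set (En n)}, CFlow G J U →
    ∀ t ∈ J, ∀ y ∈ U, G t y = 1 → ShiQ C k G t y

variable {G G' : ℝ → MetricField n} {J : Set ℝ} {U V : Set (En n)} {Φ : En n → En n} {t : ℝ}
  {y : En n}

theorem st_differentiableAt {f : ℝ → En n → ℝ} (hJ : IsOpen J) (hf : St f J U) (ht : t ∈ J)
    (hy : y ∈ U) : DifferentiableAt ℝ (fun s => f s y) t :=
  ((st_tslice hf hy).contDiffAt (hJ.mem_nhds ht)).differentiableAt (by simp)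

theorem st_cN (c : CFam G J U) (k : ℕ) : St (fun t => cN (G t) k) J U :=
  c.st_nsq (SmTT.covN c c.smTT_rmT k)

theorem st_cQ (c : CFam G J U) (k : ℕ) : St (fun t => cQ (G t) k) J U :=
  c.st_nsq (SmTT.covN c c.smTT_ricT k)

theorem deriv_nat {f f' : ℝ → En n → ℝ} (hJ : IsOpen J) (ht : t ∈ J)
    (h : ∀ s ∈ J, f' s y = f s (Φ y)) :
    deriv (fun s => f' s y) t = deriv (fun s => f s (Φ y)) t :=
  EventuallyEq.deriv_eq (by filter_upwards [hJ.mem_nhds ht] with s hs using h s hs)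

theorem lap_nat {g g' : MetricField n} (p : Pull g' g Φ V U) (hy : y ∈ V) {f f' : En n → ℝ}
    (hf : ContDiffOn ℝ ∞ f U) (h : ∀ z ∈ V, f' z = f (Φ z)) :
    laplaceBeltrami g' f' y = laplaceBeltrami g f (Φ y) := by
  rw [Bo84.lap_congr (ev_of_on p.isOpen hy h)]
  exact Bo84.lap_pull p hy (c2At hf p.riem.isOpen (p.maps y hy))

theorem shiN_of_norm {C : ℝ} {k : ℕ}
    (h : ∀ {G : ℝ → MetricField n} {J : Set ℝ} {U : Set (En n)}, CFlow G J U →
      ∀ t ∈ J, ∀ y ∈ U, G t y = 1 → ShiN C k G t y)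
    (c : CFlow G J U) (ht : t ∈ J) (hy : y ∈ U) : ShiN C k G t y := by
  obtain ⟨G', Φ, V, c', hp, h0, rfl, h1⟩ := cflow_norm c ht hy
  have h2 := h c' t ht 0 h0 h1
  have e : ∀ j, ∀ s ∈ J, ∀ z ∈ V, cN (G' s) j z = cN (G s) j (Φ z) :=
    fun j s hs z hz => nsq_covN_rm_pull (hp s hs) hz j
  unfold ShiN at h2 ⊢
  rw [deriv_nat (f := fun s => cN (G s) k) c.isOpenJ ht fun s hs => e k s hs 0 h0,
    lap_nat (hp t ht) h0 (st_slice (st_cN c.toCFam k) ht) (e k t ht)] at h2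
  simpa only [e _ t ht 0 h0] using h2

theorem shiQ_of_norm {C : ℝ} {k : ℕ}
    (h : ∀ {G : ℝ → MetricField n} {J : Set ℝ} {U : Set (En n)}, CFlow G J U →
      ∀ t ∈ J, ∀ y ∈ U, G t y = 1 → ShiQ C k G t y)
    (c : CFlow G J U) (ht : t ∈ J) (hy : y ∈ U) : ShiQ C k G t y := by
  obtain ⟨G', Φ, V, c', hp, h0, rfl, h1⟩ := cflow_norm c ht hy
  have h2 := h c' t ht 0 h0 h1
  have e : ∀ j, ∀ s ∈ J, ∀ z ∈ V, cN (G' s) j z = cN (G s) j (Φ z) :=
    fun j s hs z hz => nsq_covN_rm_pull (hp s hs) hz j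
  have e' : ∀ j, ∀ s ∈ J, ∀ z ∈ V, cQ (G' s) j z = cQ (G s) j (Φ z) :=
    fun j s hs z hz => nsq_covN_ric_pull (hp s hs) hz j
  unfold ShiQ at h2 ⊢
  rw [deriv_nat (f := fun s => cQ (G s) k) c.isOpenJ ht fun s hs => e' k s hs 0 h0,
    lap_nat (hp t ht) h0 (st_slice (st_cQ c.toCFam k) ht) (e' k t ht)] at h2
  simpa only [e _ t ht 0 h0, e' _ t ht 0 h0] using h2

/-- `∂ₜ g⁻¹ = 2 Ric^♯♯` -/
theorem hasDerivAt_ginv (c : CFlow G J U) (ht : t ∈ J) (hy : y ∈ U) (a b : Fin n) :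
    HasDerivAt (fun s => (G s y)⁻¹ a b)
      (2 * ∑ i, ∑ j, (G t y)⁻¹ a i * ricci (G t) y i j * (G t y)⁻¹ j b) t := by
  have hd := (Bo84.det_pos (c.toCFam.riem ht) hy).ne'.isUnit
  have h0 : ∀ a b, HasDerivAt (fun s => (G s y)⁻¹ a b) (deriv (fun s => (G s y)⁻¹ a b) t) t :=
    fun a b => (st_differentiableAt c.isOpenJ (c.toCFam.st_inv a b) ht hy).hasDerivAt
  have h := inv_deriv_alg (A' := Matrix.of fun i j => -2 * ricci (G t) y i j)
    (H' := Matrix.of fun i j => deriv (fun s => (G s y)⁻¹ i j) t)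
    (Matrix.nonsing_inv_mul (G t y) hd) (Matrix.mul_nonsing_inv (G t y) hd) (by
      ext i j
      have h1 := HasDerivAt.fun_sum (u := univ) fun m _ => (h0 i m).fun_mul (c.rf t ht y hy m j)
      have h2 : HasDerivAt (fun s => ∑ m, (G s y)⁻¹ i m * G s y m j) 0 t := by
        refine (hasDerivAt_const t (if i = j then (1 : ℝ) else 0)).congr_of_eventuallyEq ?_
        filter_upwards [c.isOpenJ.mem_nhds ht] with s hs using ginv_g (c.toCFam.riem hs) hy i j
      simp only [Matrix.add_apply, Matrix.mul_apply, Matrix.of_apply, Matrix.zero_apply,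
        ← sum_add_distrib]
      exact h1.unique h2)
  have h2 := congrFun (congrFun h a) b
  simp only [Matrix.of_apply, Matrix.neg_apply, Matrix.mul_apply, sum_mul] at h2
  refine (h0 a b).congr_deriv ?_
  rw [h2, sum_comm, ← sum_neg_distrib, mul_sum]
  refine sum_congr rfl fun i _ => ?_
  rw [← sum_neg_distrib, mul_sum]
  exact sum_congr rfl fun j _ => by ring

/-- `∂ₜ |∇f|² = 2 Ric(∇f, ∇f)` for a static function -/
theorem hasDerivAt_gam_static (c : CFlow G J U) (ht : t ∈ J) (hy : y ∈ U) (f : En n → ℝ) :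
    HasDerivAt (fun s => Bo84.gam (G s) f f y)
      (2 * ∑ i, ∑ j, ricci (G t) y i j * Bo84.grad (G t) f y i * Bo84.grad (G t) f y j) t := by
  have h1 := HasDerivAt.fun_sum (u := univ) fun a _ => HasDerivAt.fun_sum (u := univ) fun b _ =>
    ((hasDerivAt_ginv c ht hy a b).mul_const (pderiv a f y)).mul_const (pderiv b f y)
  refine HasDerivAt.congr_deriv h1 ?_
  have hs := ginv_symm (c.toCFam.riem ht) hy
  simp only [Bo84.grad_apply, inverseField, mul_sum, sum_mul]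
  have e : ∀ X : Fin n → Fin n → Fin n → Fin n → ℝ,
      ∑ a, ∑ b, ∑ i, ∑ j, X a b i j = ∑ i, ∑ j, ∑ b, ∑ a, X a b i j := by
    intro X
    calc ∑ a, ∑ b, ∑ i, ∑ j, X a b i j = ∑ b, ∑ a, ∑ i, ∑ j, X a b i j := sum_comm
      _ = ∑ b, ∑ i, ∑ j, ∑ a, X a b i j := sum_congr rfl fun b _ => by
          rw [sum_comm]; exact sum_congr rfl fun i _ => sum_comm
      _ = ∑ i, ∑ j, ∑ b, ∑ a, X a b i j := by
          rw [sum_comm]; exact sum_congr rfl fun i _ => sum_comm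
  rw [e]
  refine sum_congr rfl fun i _ => sum_congr rfl fun j _ => sum_congr rfl fun b _ =>
    sum_congr rfl fun a _ => ?_
  rw [hs a i]
  ring

end Crest.Agent.N207.AI

end
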