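import Crest.Agent.N207.AI.Glob1
import Crest.Agent.N207.AI.Lin
import Crest.Agent.N207.A.Co3

/-!
# Row 207 (helper44): the tensor calculus of `M` read in a parametrisation or in a chart
-/

set_option autoImplicit false
set_option linter.style.haveILetI false
set_option linter.unusedSectionVars false

open scoped ContDiff Manifold Topology
open Set Filter Bundle
open Crest.GeometryTopology.CoordMetric Crest.GeometryTopology.ChartCurvature
  Crest.GeometryTopology.MetricFamily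
open Crest.Agent.R247 Crest.Agent.R202.Tens

noncomputable section

namespace Crest.Agent.N207

variable {n k : ℕ} {M : Type*} [TopologicalSpace M] [ChartedSpace (En n) M]
  [IsManifold 𝓘(ℝ, En n) ∞ M]

theorem plC_def (Ψ : En n → M) (T : CT n M k) (y : En n) :
    plC Ψ T y = pullT (Par.rd Ψ (Ψ y)) (T (Ψ y)) y := rfl

theorem plC_add (Ψ : En n → M) (S T : CT n M k) : plC Ψ (S + T) = plC Ψ S + plC Ψ T := by
  funext y I; exact AI.evT_add _ _ _

theorem plC_sub (Ψ : En n → M) (S T : CT n M k) : plC Ψ (S - T) = plC Ψ S - plC Ψ T := by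
  funext y I; exact AI.evT_sub _ _ _

theorem plC_smul (Ψ : En n → M) (c : ℝ) (T : CT n M k) : plC Ψ (c • T) = c • plC Ψ T := by
  funext y I; exact AI.evT_mul _ _ _

theorem plC_neg (Ψ : En n → M) (T : CT n M k) : plC Ψ (-T) = -plC Ψ T := by
  rw [← neg_one_smul ℝ T, plC_smul, neg_one_smul]

theorem plC_zero (Ψ : En n → M) : plC Ψ (0 : CT n M k) = 0 := by
  funext y I; simp [plC, pullT, evT]

theorem plC_smC (Ψ : En n → M) (f : M → ℝ) (T : CT n M k) :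
    plC Ψ (smC f T) = smT (fun z => f (Ψ z)) (plC Ψ T) := by
  funext y I
  have h := AI.evT_mul (Bo84.inCh n (Ψ y) f (ctr n (Ψ y))) (T (Ψ y) (ctr n (Ψ y)))
    fun s => fderiv ℝ (Par.rd Ψ (Ψ y)) y (EuclideanSpace.single (I s) 1)
  rw [smT, ← inCh_ctr (n := n) f (Ψ y)]
  exact h

theorem plC_prmC (Ψ : En n → M) (σ : Equiv.Perm (Fin k)) (T : CT n M k) :
    plC Ψ (prmC σ T) = prmT σ (plC Ψ T) := by
  funext y I
  exact evT_perm σ (T (Ψ y) (ctr n (Ψ y)))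
    fun s => fderiv ℝ (Par.rd Ψ (Ψ y)) y (EuclideanSpace.single (I s) 1)

theorem plC_val (Ψ : En n → M) (T : CT n M 0) (y : En n) : plC Ψ T y ![] = valC T (Ψ y) := by
  rw [plC_def, pullT, AI.evT_zero_rank]; rfl

theorem plC_fnC (Ψ : En n → M) (f : M → ℝ) : plC Ψ (fnC n f) = fnT fun z => f (Ψ z) := by
  funext y
  refine arr0_ext ?_
  rw [plC_val]
  exact inCh_ctr f (Ψ y)

/-- `plC Ψ T y` only depends on the value of `T` at the centre of the chart of `Ψ y` -/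
theorem plC_congr {Ψ : En n → M} {S T : CT n M k} {y : En n}
    (h : S (Ψ y) (ctr n (Ψ y)) = T (Ψ y) (ctr n (Ψ y))) : plC Ψ S y = plC Ψ T y :=
  AI.pullT_congr EventuallyEq.rfl h

namespace Par

variable {Ψ : En n → M} {U : Set (En n)} {y : En n} {S T : CT n M k} {f h : M → ℝ}
  (hP : Par Ψ U)
include hP

theorem differentiableAt_rd {x : M} (hy : y ∈ dom Ψ U x) : DifferentiableAt ℝ (rd Ψ x) y :=
  (hP.contDiffAt_rd hy).differentiableAt (by simp)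

/-- the pull-back of a compatible field can be computed in any chart -/
theorem plC_eq (hT : Compat T) {x : M} (hy : y ∈ dom Ψ U x) :
    plC Ψ T y = pullT (rd Ψ x) (T x) y := by
  have h0 := mem_dom_self (Ψ := Ψ) hy.1
  have h1 : rd Ψ (Ψ y) y ∈ Bo84.tdom (Ψ y) x := ⟨rd_mem h0, by
    rw [mem_preimage, symm_rd h0]; exact hy.2⟩
  have h2 : DifferentiableAt ℝ (Bo84.trans (Ψ y) x) (rd Ψ (Ψ y) y) :=
    ((Bo84.contDiffOn_trans _ _).contDiffAt
      ((Bo84.isOpen_tdom _ _).mem_nhds h1)).differentiableAt (by simp)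
  rw [plC_def, AI.pullT_congr EventuallyEq.rfl (hT _ x _ h1),
    AI.pullT_comp _ (hP.differentiableAt_rd h0) h2]
  refine AI.pullT_congr ?_ rfl
  filter_upwards [hP.dom_mem_nhds hy.1] with z hz
  rw [Bo84.trans, symm_rd hz]; rfl

theorem rel (hT : Compat T) (x : M) : Rel (rd Ψ x) (dom Ψ U x) (plC Ψ T) (T x) :=
  fun _ hy => hP.plC_eq hT hy

theorem smT_plC (hT : IsGlob T) : SmT (plC Ψ T) U := fun I =>
  hP.contDiffOn_of_dom fun x =>
    ((AI.smT_pullT (hP.isOpen_dom x) (hP.contDiffOn_rd x) (fun _ hy => rd_mem hy)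
      (hT.sm x)).congr (hP.rel hT.compat x)) I

theorem par_dC (hf : Sm n f) (hy : y ∈ U) : plC Ψ (dC n f) y = dT (fun z => f (Ψ z)) y := by
  have h0 := mem_dom_self (Ψ := Ψ) hy
  rw [(dT_congr (hP.comp_eventuallyEq f h0)).eq_of_nhds]
  exact (AI.dT_pull (hP.differentiableAt_rd h0)
    (dAt (hf.inCh _) (isOpen_tg _) (rd_mem h0))).symm

variable (m : Met n M)

theorem par_ip (hS : Compat S) (hT : Compat T) (hy : y ∈ U) :
    m.ip S T (Ψ y) = ip (m.pm Ψ) (plC Ψ S) (plC Ψ T) y :=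
  ((hP.rel hS _).ip (hP.pull m (Ψ y)) (hP.rel hT _) (mem_dom_self hy)).symm

theorem par_nsq (hT : Compat T) (hy : y ∈ U) : m.nsq T (Ψ y) = nsq (m.pm Ψ) (plC Ψ T) y :=
  hP.par_ip m hT hT hy

theorem par_cov (hT : IsGlob T) (hy : y ∈ U) :
    plC Ψ (m.cov T) y = cov (m.pm Ψ) (plC Ψ T) y :=
  ((hP.rel hT.compat _).cov (hP.pull m (Ψ y)) (hT.sm _) y (mem_dom_self hy)).symm

theorem par_covN (hT : IsGlob T) (j : ℕ) (hy : y ∈ U) :
    plC Ψ (m.covN T j) y = covN (m.pm Ψ) (plC Ψ T) j y :=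
  ((hP.rel hT.compat _).covN (hP.pull m (Ψ y)) (hT.sm _) j y (mem_dom_self hy)).symm

theorem par_tr {T : CT n M (k + 2)} (hT : Compat T) (hy : y ∈ U) :
    plC Ψ (m.tr T) y = trT (m.pm Ψ) (plC Ψ T) y :=
  ((hP.rel hT _).trT (hP.pull m (Ψ y)) y (mem_dom_self hy)).symm

theorem par_div {T : CT n M (k + 1)} (hT : IsGlob T) (hy : y ∈ U) :
    plC Ψ (m.div T) y = divT (m.pm Ψ) (plC Ψ T) y :=
  ((hP.rel hT.compat _).divT (hP.pull m (Ψ y)) (hT.sm _) y (mem_dom_self hy)).symm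

theorem par_lapC (hT : IsGlob T) (hy : y ∈ U) :
    plC Ψ (m.lapC T) y = lapT (m.pm Ψ) (plC Ψ T) y :=
  ((hP.rel hT.compat _).lapT (hP.pull m (Ψ y)) (hT.sm _) y (mem_dom_self hy)).symm

theorem par_con {T : CT n M (k + 1)} (hS : Compat S) (hT : Compat T) (hy : y ∈ U) :
    plC Ψ (m.con S T) y = conT (m.pm Ψ) (plC Ψ S) (plC Ψ T) y :=
  ((hP.rel hS _).conT (hP.pull m (Ψ y)) (hP.rel hT _) y (mem_dom_self hy)).symm

theorem par_met (hy : y ∈ U) : plC Ψ m.met y = matT (m.pm Ψ) y :=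
  (Rel.matT (hP.pull m (Ψ y)) y (mem_dom_self hy)).symm

theorem par_ric (hy : y ∈ U) : plC Ψ m.ric y = ricT (m.pm Ψ) y :=
  (Rel.ricT (hP.pull m (Ψ y)) y (mem_dom_self hy)).symm

theorem par_riem (hy : y ∈ U) : plC Ψ m.riem y = rmT (m.pm Ψ) y :=
  (Rel.rmT (hP.pull m (Ψ y)) y (mem_dom_self hy)).symm

theorem par_hess (hf : Sm n f) (hy : y ∈ U) :
    plC Ψ (m.hess f) y = hessT (m.pm Ψ) (fun z => f (Ψ z)) y :=
  (Rel.hessT (hP.pull m (Ψ y)) (fun _ hz => (inCh_rd f hz).symm) (hf.inCh _) y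
    (mem_dom_self hy)).symm

theorem par_covN_riem (j : ℕ) (hy : y ∈ U) :
    plC Ψ (m.covN m.riem j) y = covN (m.pm Ψ) (rmT (m.pm Ψ)) j y :=
  ((Rel.rmT (hP.pull m (Ψ y))).covN (hP.pull m (Ψ y)) (SmT.rmT (m.isRiem _)) j y
    (mem_dom_self hy)).symm

theorem par_covN_ric (j : ℕ) (hy : y ∈ U) :
    plC Ψ (m.covN m.ric j) y = covN (m.pm Ψ) (ricT (m.pm Ψ)) j y :=
  ((Rel.ricT (hP.pull m (Ψ y))).covN (hP.pull m (Ψ y)) (SmT.ricT (m.isRiem _)) j y
    (mem_dom_self hy)).symm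

theorem par_covN_fn (hf : Sm n f) (j : ℕ) (hy : y ∈ U) :
    plC Ψ (m.covN (fnC n f) j) y = covN (m.pm Ψ) (fnT fun z => f (Ψ z)) j y := by
  rw [hP.par_covN m (IsGlob.fnC hf) j hy, plC_fnC]

theorem par_rm (j : ℕ) (hy : y ∈ U) :
    m.rm j (Ψ y) = nsq (m.pm Ψ) (covN (m.pm Ψ) (rmT (m.pm Ψ)) j) y :=
  (AI.nsq_covN_rm_pull (hP.pull m (Ψ y)) (mem_dom_self hy) j).symm

theorem par_rc (j : ℕ) (hy : y ∈ U) :
    m.rc j (Ψ y) = nsq (m.pm Ψ) (covN (m.pm Ψ) (ricT (m.pm Ψ)) j) y :=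
  (AI.nsq_covN_ric_pull (hP.pull m (Ψ y)) (mem_dom_self hy) j).symm

theorem par_df (hf : Sm n f) (j : ℕ) (hy : y ∈ U) :
    m.df j f (Ψ y) = nsq (m.pm Ψ) (covN (m.pm Ψ) (fnT fun z => f (Ψ z)) j) y := by
  rw [Met.df, hP.par_nsq m ((IsGlob.fnC hf).covN m j).compat hy, nsq, nsq, ip, ip,
    hP.par_covN_fn m hf j hy]

theorem par_scal (hy : y ∈ U) : m.scal (Ψ y) = scalarCurv (m.pm Ψ) y :=
  (AI.scalarCurv_pull (hP.pull m (Ψ y)) (mem_dom_self hy)).symm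

theorem par_hh (hf : Sm n f) (hy : y ∈ U) :
    m.nsq (m.hess f) (Ψ y) = nsq (m.pm Ψ) (hessT (m.pm Ψ) fun z => f (Ψ z)) y := by
  rw [hP.par_nsq m (IsGlob.hess m hf).compat hy, nsq, nsq, ip, ip, hP.par_hess m hf hy]

theorem par_rh (hf : Sm n f) (hy : y ∈ U) :
    m.ip m.ric (m.hess f) (Ψ y) =
      ip (m.pm Ψ) (ricT (m.pm Ψ)) (hessT (m.pm Ψ) fun z => f (Ψ z)) y := by
  rw [hP.par_ip m m.glob_ric.compat (IsGlob.hess m hf).compat hy, ip, ip, hP.par_hess m hf hy,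
    hP.par_ric m hy]

/-- the Laplacian; `f` is only `C²` at the point -/
theorem par_lap' (hy : y ∈ U) (hf : ContMDiffAt 𝓘(ℝ, En n) 𝓘(ℝ, ℝ) 2 f (Ψ y)) :
    m.lap f (Ψ y) = laplaceBeltrami (m.pm Ψ) (fun z => f (Ψ z)) y := by
  have h0 := mem_dom_self (Ψ := Ψ) hy
  have h1 : ContDiffAt ℝ 2 (Bo84.inCh n (Ψ y) f) (rd Ψ (Ψ y) y) := by
    have h2 : ContMDiffAt 𝓘(ℝ, En n) 𝓘(ℝ, En n) 2 (chartAt (En n) (Ψ y)).symm (rd Ψ (Ψ y) y) :=
      ((contMDiffOn_chart_symm (I := 𝓘(ℝ, En n)) (n := ∞) (x := Ψ y)).contMDiffAt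
        ((isOpen_tg _).mem_nhds (rd_mem h0))).of_le Bo84.two_le_infty
    rw [← symm_rd h0] at hf
    exact contMDiffAt_iff_contDiffAt.1 (hf.comp _ h2)
  rw [(lapB_congr EventuallyEq.rfl (hP.comp_eventuallyEq f h0)).eq_of_nhds,
    Bo84.lap_pull (hP.pull m (Ψ y)) h0 h1]
  rfl

theorem par_lap (hf : Sm n f) (hy : y ∈ U) :
    m.lap f (Ψ y) = laplaceBeltrami (m.pm Ψ) (fun z => f (Ψ z)) y :=
  hP.par_lap' m hy ((hf _).of_le Bo84.two_le_infty)

/-- `⟨∇f, ∇h⟩`; `f`, `h` are only differentiable at the point -/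
theorem par_gam' (hy : y ∈ U) (hf : MDifferentiableAt 𝓘(ℝ, En n) 𝓘(ℝ, ℝ) f (Ψ y))
    (hh : MDifferentiableAt 𝓘(ℝ, En n) 𝓘(ℝ, ℝ) h (Ψ y)) :
    m.gam f h (Ψ y) = Bo84.gam (m.pm Ψ) (fun z => f (Ψ z)) (fun z => h (Ψ z)) y := by
  have h0 := mem_dom_self (Ψ := Ψ) hy
  have h1 : ∀ {f : M → ℝ}, MDifferentiableAt 𝓘(ℝ, En n) 𝓘(ℝ, ℝ) f (Ψ y) →
      DifferentiableAt ℝ (Bo84.inCh n (Ψ y) f) (rd Ψ (Ψ y) y) := by
    intro f hf
    have h2 : MDifferentiableAt 𝓘(ℝ, En n) 𝓘(ℝ, En n) (chartAt (En n) (Ψ y)).symm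
        (rd Ψ (Ψ y) y) :=
      (mdifferentiable_chart (I := 𝓘(ℝ, En n)) (Ψ y)).mdifferentiableAt_symm (rd_mem h0)
    rw [← symm_rd h0] at hf
    exact (hf.comp _ h2).differentiableAt
  have h3 := Bo84.gam_pull (hP.pull m (Ψ y)) h0 (h1 hf) (h1 hh)
  refine h3.symm.trans ?_
  simp only [Bo84.gam, fun i => pd_congr i (hP.comp_eventuallyEq f h0),
    fun i => pd_congr i (hP.comp_eventuallyEq h h0)]

theorem par_gam (hf : Sm n f) (hh : Sm n h) (hy : y ∈ U) :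
    m.gam f h (Ψ y) = Bo84.gam (m.pm Ψ) (fun z => f (Ψ z)) (fun z => h (Ψ z)) y :=
  hP.par_gam' m hy ((hf _).mdifferentiableAt (by simp)) ((hh _).mdifferentiableAt (by simp))

theorem par_pf (hy : y ∈ U) : m.pf (Ψ y) = nsq (m.pm Ψ) (rmT (m.pm Ψ)) y -
    4 * nsq (m.pm Ψ) (ricT (m.pm Ψ)) y + scalarCurv (m.pm Ψ) y ^ 2 := by
  rw [Met.pf, hP.par_rm m 0 hy, hP.par_rc m 0 hy, hP.par_scal m hy]; rfl

end Par

/-- the pull-back by the inverse of a chart gives back the components in this chart -/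
theorem plC_chart {T : CT n M k} (hT : Compat T) {x : M} {y : En n} (hy : y ∈ tg n x) :
    plC (chartAt (En n) x).symm T y = T x y := (hT.eq_centre hy).symm

theorem valC_chart {T : CT n M 0} (hT : Compat T) {x : M} {y : En n} (hy : y ∈ tg n x) :
    Bo84.inCh n x (valC T) y = T x y ![] := by
  rw [← plC_chart hT hy, plC_val]; rfl

theorem valC_fnC (f : M → ℝ) : valC (fnC n f) = f := funext fun x => inCh_ctr f x

theorem fnC_valC {T : CT n M 0} (hT : Compat T) {x : M} {y : En n} (hy : y ∈ tg n x) :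
    fnC n (valC T) x y = T x y := arr0_ext (valC_chart hT hy)

theorem IsGlob.sm_valC {T : CT n M 0} (hT : IsGlob T) : Sm n (valC T) :=
  sm_of_inCh fun x => (hT.sm x ![]).congr fun _ hy => valC_chart hT.compat hy

namespace Met

variable (m : Met n M) {S T : CT n M k} {f h : M → ℝ} {x : M} {y : En n}

theorem ip_chart (hS : Compat S) (hT : Compat T) (hy : y ∈ tg n x) :
    Bo84.inCh n x (m.ip S T) y = N207.ip (m.G x) (S x) (T x) y :=
  ((hS.rel x _).ip (m.pull_trans x _) (hT.rel x _) (mem_tdom_self hy)).symm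

theorem nsq_chart (hT : Compat T) (hy : y ∈ tg n x) :
    Bo84.inCh n x (m.nsq T) y = N207.nsq (m.G x) (T x) y := m.ip_chart hT hT hy

theorem rm_chart (j : ℕ) (hy : y ∈ tg n x) : Bo84.inCh n x (m.rm j) y =
    N207.nsq (m.G x) (N207.covN (m.G x) (rmT (m.G x)) j) y := (Par.chart x).par_rm m j hy

theorem rc_chart (j : ℕ) (hy : y ∈ tg n x) : Bo84.inCh n x (m.rc j) y =
    N207.nsq (m.G x) (N207.covN (m.G x) (ricT (m.G x)) j) y := (Par.chart x).par_rc m j hy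

theorem df_chart (hf : Sm n f) (j : ℕ) (hy : y ∈ tg n x) : Bo84.inCh n x (m.df j f) y =
    N207.nsq (m.G x) (N207.covN (m.G x) (fnT (Bo84.inCh n x f)) j) y :=
  (Par.chart x).par_df m hf j hy

theorem scal_chart (hy : y ∈ tg n x) : Bo84.inCh n x m.scal y = scalarCurv (m.G x) y :=
  (Par.chart x).par_scal m hy

theorem lap_chart' (hy : y ∈ tg n x)
    (hf : ContMDiffAt 𝓘(ℝ, En n) 𝓘(ℝ, ℝ) 2 f ((chartAt (En n) x).symm y)) :
    Bo84.inCh n x (m.lap f) y = laplaceBeltrami (m.G x) (Bo84.inCh n x f) y :=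
  (Par.chart x).par_lap' m hy hf

theorem lap_chart (hf : Sm n f) (hy : y ∈ tg n x) :
    Bo84.inCh n x (m.lap f) y = laplaceBeltrami (m.G x) (Bo84.inCh n x f) y :=
  (Par.chart x).par_lap m hf hy

/-- no differentiability is needed -/
theorem gam_chart (f h : M → ℝ) (hy : y ∈ tg n x) :
    Bo84.inCh n x (m.gam f h) y = Bo84.gam (m.G x) (Bo84.inCh n x f) (Bo84.inCh n x h) y :=
  letI : RiemannianBundle (fun x : M => TangentSpace 𝓘(ℝ, En n) x) := ⟨m.toRiemannianMetric⟩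
  Bo84.mGam_chart hy f h

theorem sm_ip (hS : IsGlob S) (hT : IsGlob T) : Sm n (m.ip S T) :=
  sm_of_inCh fun x => ((hS.sm x).ip (m.isRiem x) (hT.sm x)).congr fun _ hy =>
    m.ip_chart hS.compat hT.compat hy

theorem sm_nsq (hT : IsGlob T) : Sm n (m.nsq T) := m.sm_ip hT hT

theorem sm_rm (j : ℕ) : Sm n (m.rm j) := m.sm_nsq (m.glob_riem.covN m j)

theorem sm_rc (j : ℕ) : Sm n (m.rc j) := m.sm_nsq (m.glob_ric.covN m j)

theorem sm_df (hf : Sm n f) (j : ℕ) : Sm n (m.df j f) := m.sm_nsq ((IsGlob.fnC hf).covN m j)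

theorem sm_scal : Sm n m.scal :=
  sm_of_inCh fun x => (N207.sm_scal (m.isRiem x)).congr fun _ hy => m.scal_chart hy

theorem sm_lap (hf : Sm n f) : Sm n (m.lap f) :=
  sm_of_inCh fun x => (N207.sm_lap (m.isRiem x) (hf.inCh x)).congr fun _ hy => m.lap_chart hf hy

theorem sm_gam (hf : Sm n f) (hh : Sm n h) : Sm n (m.gam f h) :=
  sm_of_inCh fun x => (N207.sm_gam (m.isRiem x) (hf.inCh x) (hh.inCh x)).congr fun _ hy =>
    m.gam_chart f h hy

theorem sm_pf : Sm n m.pf :=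
  ((m.sm_rm 0).sub (contMDiff_const.mul (m.sm_rc 0))).add (m.sm_scal.pow 2)

/-! ### dictionary between the scalar and the tensor operations -/

theorem ip_dC (f h : M → ℝ) : m.ip (dC n f) (dC n h) = m.gam f h :=
  funext fun _ => ip_dT _ _ _ _

theorem df_zero (f : M → ℝ) (x : M) : m.df 0 f x = f x ^ 2 := by
  have h := ipA_zero_rank (H := (m.G x (ctr n x))⁻¹) (fnC n f x (ctr n x)) (fnC n f x (ctr n x))
  rw [sq, ← inCh_ctr (n := n) f x]
  exact h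

theorem df_one (f : M → ℝ) : m.df 1 f = m.gam f f := by
  rw [← m.ip_dC, ← m.cov_fnC]; rfl

theorem df_two (f : M → ℝ) : m.df 2 f = m.nsq (m.hess f) := by
  rw [m.hess_eq, ← m.cov_fnC]; rfl

theorem df_succ (f : M → ℝ) (j : ℕ) : m.df (j + 1) f = m.nsq (m.cov (m.covN (fnC n f) j)) := rfl

theorem valC_tr_ric : valC (m.tr m.ric) = m.scal := rfl

theorem valC_div_dC (hf : Sm n f) : valC (m.div (dC n f)) = m.lap f := funext fun x =>
  (lapB_eq_divT (m.isRiem x) (ctr_mem x) (c2At (hf.inCh x) (isOpen_tg x) (ctr_mem x))).symm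

theorem valC_tr_hess (hf : Sm n f) : valC (m.tr (m.hess f)) = m.lap f := m.valC_div_dC hf

theorem valC_lapC_fnC (hf : Sm n f) : valC (m.lapC (fnC n f)) = m.lap f := by
  rw [m.lapC_eq, m.cov_fnC]; exact m.valC_div_dC hf

theorem ip_comm (S T : CT n M k) : m.ip S T = m.ip T S :=
  funext fun x => N207.ip_comm (m.isRiem x) (ctr_mem x) _ _

end Met

end Crest.Agent.N207

end
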