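import Crest.Agent.N207.AI.EvoC
import Crest.Agent.N207.AI.Par2
import Crest.Agent.N207.AI.HcDef
import Crest.Agent.N207.C.Basic

/-!
# Row 207 (helper45): `HC.Evo` for the heat calculus of a Ricci flow
-/

set_option autoImplicit false
set_option linter.unusedSectionVars false

open scoped ContDiff Manifold Topology
open Set Filter
open Crest.GeometryTopology.CoordMetric Crest.GeometryTopology.ChartCurvature
  Crest.GeometryTopology.MetricFamily
open Crest.Agent.R202.Tens Crest.Agent.R247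

noncomputable section

namespace Crest.Agent.N207.AI

section abstract

variable {M : Type*} [TopologicalSpace M] [MeasurableSpace M] {H : HC M} {a b : ℝ}
  {f f' g : ℝ → M → ℝ}

theorem deriv_of_Ioo (hd : HasDt a b f f') {t : ℝ} (ht : t ∈ Ioo a b) (x : M) :
    deriv (fun s => f s x) t = f' t x :=
  ((hd t (Ioo_subset_Icc_self ht) x).hasDerivAt (Icc_mem_nhds ht.1 ht.2)).deriv

theorem deriv_of_diff (hab : a < b) (hd : HasDt a b f f') {t : ℝ} (ht : t ∈ Icc a b) {x : M}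
    (hx : DifferentiableAt ℝ (fun s => f s x) t) : deriv (fun s => f s x) t = f' t x :=
  (uniqueDiffOn_Icc hab t ht).eq_deriv _ hx.hasDerivAt.hasDerivWithinAt (hd t ht x)

/-- a time derivative in the interior extends to the end points -/
theorem hasDt_of_Ioo (A : H.Alg) (hab : a < b) (hf : H.Sm a b f) (hg : H.Sm a b g)
    (h : ∀ t ∈ Ioo a b, ∀ x, deriv (fun s => f s x) t = g t x) : HasDt a b f g := by
  obtain ⟨f', hf', hd⟩ := A.sm_dt hab hf
  refine hd.congr_d fun t ht x => ?_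
  have h1 : EqOn (fun s => g s x) (fun s => f' s x) (Ioo a b) := fun s hs =>
    (h s hs x).symm.trans (deriv_of_Ioo hd hs x)
  exact h1.of_subset_closure (A.sm_cont_t hg x) (A.sm_cont_t hf' x) Ioo_subset_Icc_self
    (by rw [closure_Ioo hab.ne]) ht

end abstract

section static

variable {n k : ℕ} {M : Type*} [TopologicalSpace M] [ChartedSpace (En n) M]
  [IsManifold 𝓘(ℝ, En n) ∞ M] (m : Met n M)

theorem ev_ctr {α : Type*} {A B : En n → α} {x : M} (h : ∀ z ∈ tg n x, A z = B z) :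
    A =ᶠ[𝓝 (ctr n x)] B := ev_of_on (isOpen_tg x) (ctr_mem x) h

theorem lap_of_chart {u : M → ℝ} {f : En n → ℝ} {x : M}
    (h : ∀ z ∈ tg n x, Bo84.inCh n x u z = f z) :
    m.lap u x = laplaceBeltrami (m.G x) f (ctr n x) := Bo84.lap_congr (ev_ctr h)

theorem gam_of_chart {u v : M → ℝ} {f f' : En n → ℝ} {x : M}
    (h : ∀ z ∈ tg n x, Bo84.inCh n x u z = f z) (h' : ∀ z ∈ tg n x, Bo84.inCh n x v z = f' z) :
    m.gam u v x = Bo84.gam (m.G x) f f' (ctr n x) := Bo84.gam_congr (ev_ctr h) (ev_ctr h')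

theorem m_nsq_nonneg (T : CT n M k) (x : M) : 0 ≤ m.nsq T x :=
  nsq_nonneg (m.isRiem x) (ctr_mem x) _

theorem m_ip_sq_le (S T : CT n M k) (x : M) : m.ip S T x ^ 2 ≤ m.nsq S x * m.nsq T x :=
  ip_sq_le (m.isRiem x) (ctr_mem x) _ _

theorem m_lap_sq_le {u : M → ℝ} (hu : Sm n u) (x : M) :
    m.lap u x ^ 2 ≤ n * m.nsq (m.hess u) x :=
  lap_sq_le (m.isRiem x) (ctr_mem x) (c2At (hu.inCh x) (isOpen_tg x) (ctr_mem x))

theorem m_scal_sq_le (x : M) : m.scal x ^ 2 ≤ n * m.rc 0 x := scal_sq_le (m.isRiem x) (ctr_mem x)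

theorem m_rc_le (j : ℕ) (x : M) : m.rc j x ≤ n * m.rm j x :=
  nsq_covN_ric_le (m.isRiem x) (ctr_mem x) j

theorem m_gam_scal_le (x : M) : m.gam m.scal m.scal x ≤ n * m.rc 1 x := by
  rw [gam_of_chart m (fun z hz => m.scal_chart hz) fun z hz => m.scal_chart hz]
  exact gam_scal_le (m.isRiem x) (ctr_mem x)

/-- **Kato's inequality** on `M` -/
theorem m_kato {T : CT n M k} (hT : IsGlob T) (x : M) :
    m.gam (m.nsq T) (m.nsq T) x ≤ 4 * m.nsq T x * m.nsq (m.cov T) x := by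
  rw [gam_of_chart m (fun z hz => m.nsq_chart hT.compat hz) fun z hz => m.nsq_chart hT.compat hz]
  exact kato_nsq (m.isRiem x) (ctr_mem x) (smT_diff (isOpen_tg x) (hT.sm x) (ctr_mem x))

theorem m_kato_gam {u : M → ℝ} (hu : Sm n u) (x : M) :
    m.gam (m.gam u u) (m.gam u u) x ≤ 4 * m.gam u u x * m.nsq (m.hess u) x := by
  have h := m_kato m (IsGlob.dC hu) x
  have h1 : m.nsq (dC n u) = m.gam u u := m.ip_dC u u
  rwa [h1] at h

theorem m_sol_nonneg {u : M → ℝ} (hu : Sm n u) (c : ℝ) (x : M) :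
    0 ≤ m.nsq (m.hess u) x + 2 * m.ip m.ric (m.hess u) x + m.rc 0 x -
      2 * c * (m.scal x + m.lap u x) + c ^ 2 * n := by
  have h := sol_nonneg (m.isRiem x) (ctr_mem x) (ricT (m.G x))
    (hessT (m.G x) (Bo84.inCh n x u)) c
  rw [← lapB_eq_trT (m.isRiem x) (ctr_mem x) (c2At (hu.inCh x) (isOpen_tg x) (ctr_mem x)),
    ← scal_eq_trT] at h
  exact h

end static

variable {M : Type*} [TopologicalSpace M] [ChartedSpace E4 M] [IsManifold 𝓘(ℝ, E4) ∞ M]
  (F : Flow M) {t : ℝ}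

theorem flow_hasDerivAt_gam (ht : t ∈ Ioo 0 F.T) (u : M → ℝ) (x : M) :
    ∃ D, HasDerivAt (fun s => (F.m s).gam u u x) D t ∧
      |D| ≤ 2 * √((F.m t).rc 0 x) * (F.m t).gam u u x := by
  refine ⟨_, hasDerivAt_gam_static (F.cflow x) ht (ctr_mem x) (Bo84.inCh 4 x u), ?_⟩
  rw [abs_mul, abs_two, mul_assoc]
  exact mul_le_mul_of_nonneg_left (abs_ric_grad_le ((F.m t).isRiem x) (ctr_mem x) _) zero_le_two

theorem flow_diff_scal (ht : t ∈ Ioo 0 F.T) (x : M) :
    DifferentiableAt ℝ (fun s => (F.m s).scal x) t :=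
  st_differentiableAt isOpen_Ioo (F.cflow x).toCFam.st_scal ht (ctr_mem x)

theorem flow_diff_rm (ht : t ∈ Ioo 0 F.T) (k : ℕ) (x : M) :
    DifferentiableAt ℝ (fun s => (F.m s).rm k x) t :=
  st_differentiableAt isOpen_Ioo (st_cN (F.cflow x).toCFam k) ht (ctr_mem x)

theorem flow_diff_rc (ht : t ∈ Ioo 0 F.T) (k : ℕ) (x : M) :
    DifferentiableAt ℝ (fun s => (F.m s).rc k x) t :=
  st_differentiableAt isOpen_Ioo (st_cQ (F.cflow x).toCFam k) ht (ctr_mem x)

theorem flow_dt_scal (E : CEvo 4) (ht : t ∈ Ioo 0 F.T) (x : M) :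
    deriv (fun s => (F.m s).scal x) t = (F.m t).lap (F.m t).scal x + 2 * (F.m t).rc 0 x := by
  rw [lap_of_chart (F.m t) fun z hz => (F.m t).scal_chart hz]
  exact E.scal (F.cflow x) t ht _ (ctr_mem x)

theorem flow_dt_rm (E : CEvo 4) (k : ℕ) : ∃ C, 0 ≤ C ∧ ∀ t ∈ Ioo 0 F.T, ∀ x,
    |deriv (fun s => (F.m s).rm k x) t - (F.m t).lap ((F.m t).rm k) x + 2 * (F.m t).rm (k + 1) x| ≤
      C * ∑ i ∈ Finset.range (k + 1),
        √((F.m t).rm i x) * √((F.m t).rm (k - i) x) * √((F.m t).rm k x) := by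
  obtain ⟨C, hC, h⟩ := E.rm k
  refine ⟨C, hC, fun t ht x => ?_⟩
  rw [lap_of_chart (F.m t) fun z hz => (F.m t).rm_chart k hz]
  exact shiN_of_norm h (F.cflow x) ht (ctr_mem x)

theorem flow_dt_rc (E : CEvo 4) (k : ℕ) : ∃ C, 0 ≤ C ∧ ∀ t ∈ Ioo 0 F.T, ∀ x,
    |deriv (fun s => (F.m s).rc k x) t - (F.m t).lap ((F.m t).rc k) x + 2 * (F.m t).rc (k + 1) x| ≤
      C * ∑ i ∈ Finset.range (k + 1),
        √((F.m t).rm i x) * √((F.m t).rc (k - i) x) * √((F.m t).rc k x) := by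
  obtain ⟨C, hC, h⟩ := E.rc k
  refine ⟨C, hC, fun t ht x => ?_⟩
  rw [lap_of_chart (F.m t) fun z hz => (F.m t).rc_chart k hz]
  exact shiQ_of_norm h (F.cflow x) ht (ctr_mem x)

variable {J : Set ℝ} {u : ℝ → M → ℝ}

/-- Bochner's formula along the flow, on an open set of times -/
theorem flow_dt_gam (E : CEvo 4) (hJ : IsOpen J) (hJT : J ⊆ Ioo 0 F.T) (hu : SmST 4 u J)
    (ht : t ∈ J) (x : M) :
    deriv (fun s => (F.m s).gam (u s) (u s) x) t = (F.m t).lap ((F.m t).gam (u t) (u t)) x +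
      2 * (F.m t).gam (u t) (fun y => dt u t y - (F.m t).lap (u t) y) x -
      2 * (F.m t).nsq ((F.m t).hess (u t)) x := by
  have hut : Sm 4 (u t) := sm_of_inCh fun x => st_slice (f := fun s => Bo84.inCh 4 x (u s)) (hu x) ht
  rw [lap_of_chart (F.m t) fun z hz => (F.m t).gam_chart (u t) (u t) hz,
    gam_of_chart (F.m t) (v := fun y => dt u t y - (F.m t).lap (u t) y) (fun _ _ => rfl)
      (f' := fun z => deriv (fun s => Bo84.inCh 4 x (u s) z) t -
        laplaceBeltrami ((F.m t).G x) (Bo84.inCh 4 x (u t)) z)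
      fun z hz => by rw [← (F.m t).lap_chart hut hz]; rfl]
  exact E.gam ((F.cflow x).mono hJ hJT (isOpen_tg x) Subset.rfl)
    (u := fun s => Bo84.inCh 4 x (u s)) (hu x) t ht _ (ctr_mem x)

/-- `[∂ₜ, Δ] u = 2 ⟨Ric, Hess u⟩` -/
theorem flow_dt_lap (E : CEvo 4) (hJ : IsOpen J) (hJT : J ⊆ Ioo 0 F.T) (hu : SmST 4 u J)
    (ht : t ∈ J) (x : M) :
    deriv (fun s => (F.m s).lap (u s) x) t = (F.m t).lap (dt u t) x +
      2 * (F.m t).ip (F.m t).ric ((F.m t).hess (u t)) x :=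
  E.lap ((F.cflow x).mono hJ hJT (isOpen_tg x) Subset.rfl)
    (u := fun s => Bo84.inCh 4 x (u s)) (hu x) t ht _ (ctr_mem x)

variable [T3Space M] [ConnectedSpace M] [MeasurableSpace M] [BorelSpace M]

theorem smST_Ioo {a b : ℝ} (hu : F.hc.Sm a b u) : SmST 4 u (Ioo a b) :=
  fun x => (hu x).mono (prod_mono Ioo_subset_Icc_self Subset.rfl)

theorem st_sub {a b : ℝ} (hs : F.hc.St a b) : Ioo a b ⊆ Ioo 0 F.T :=
  fun _ ht => hs.mem (Ioo_subset_Icc_self ht)

/-- **the evolution equations of the heat calculus** -/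
theorem evo (A : F.hc.Alg) (E : CEvo 4) {C : ℝ} (hC : F.BddR C) : F.hc.Evo where
  R_bd := ⟨C, fun t ht x => hC t (Ioo_subset_Ico_self ht) x⟩
  dt_gam := by
    intro a b u u' hs hu hd
    have hu' := A.sm_of_dt hs.2.1 hu hd
    refine hasDt_of_Ioo A hs.2.1 (A.sm_gam hs hu hu)
      (A.sm_sub (A.sm_add (A.sm_lap hs (A.sm_gam hs hu hu))
        (A.sm_cmul 2 (A.sm_gam hs hu (A.sm_sub hu' (A.sm_lap hs hu)))))
        (A.sm_cmul 2 (A.sm_hh hs hu))) fun t ht x => ?_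
    have h1 : dt u t = u' t := funext fun y => deriv_of_Ioo hd ht y
    have h := flow_dt_gam F E isOpen_Ioo (st_sub F hs) (smST_Ioo F hu) ht x
    rw [h1] at h
    exact h
  dt_gam_static := by
    intro a b u G' hs _ hd t ht x
    obtain ⟨D, hD, h⟩ := flow_hasDerivAt_gam F (hs.mem ht) u x
    rw [← deriv_of_diff hs.2.1 hd ht hD.differentiableAt]
    have h2 : deriv (fun s => F.hc.gam s u u x) t = D := hD.deriv
    rw [h2]
    exact h
  dt_lap := by
    intro a b u u' hs hu hd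
    have hu' := A.sm_of_dt hs.2.1 hu hd
    refine hasDt_of_Ioo A hs.2.1 (A.sm_lap hs hu)
      (A.sm_add (A.sm_lap hs hu') (A.sm_cmul 2 (A.sm_rh hs hu))) fun t ht x => ?_
    have h1 : dt u t = u' t := funext fun y => deriv_of_Ioo hd ht y
    have h := flow_dt_lap F E isOpen_Ioo (st_sub F hs) (smST_Ioo F hu) ht x
    rw [h1] at h
    exact h
  dt_R := by
    intro a b hs t ht x
    have h := (flow_diff_scal F (hs.mem ht) x).hasDerivAt
    rw [flow_dt_scal F E (hs.mem ht) x] at h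
    exact h.hasDerivWithinAt
  hh_nonneg t _ u _ x := m_nsq_nonneg (F.m t) ((F.m t).hess u) x
  lap_sq t _ _ hu x := by exact_mod_cast m_lap_sq_le (F.m t) hu x
  rh_sq t _ u _ x := m_ip_sq_le (F.m t) (F.m t).ric ((F.m t).hess u) x
  sol_nonneg := by
    intro t _ τ hτ u hu x
    have h := m_sol_nonneg (F.m t) hu (1 / (2 * τ)) x
    have e1 : 2 * (1 / (2 * τ)) * ((F.m t).scal x + (F.m t).lap u x) =
        ((F.m t).scal x + (F.m t).lap u x) / τ := by field_simp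
    have e2 : (1 / (2 * τ)) ^ 2 * ((4 : ℕ) : ℝ) = 1 / τ ^ 2 := by push_cast; field_simp; norm_num
    rw [e1, e2] at h
    exact h
  kato_gam t _ _ hu x := m_kato_gam (F.m t) hu x
  R_sq t _ x := by exact_mod_cast m_scal_sq_le (F.m t) x
  N_nonneg k t _ x := m_nsq_nonneg (F.m t) _ x
  Q_nonneg k t _ x := m_nsq_nonneg (F.m t) _ x
  Q_le k t _ x := by exact_mod_cast m_rc_le (F.m t) k x
  gam_R t _ x := by exact_mod_cast m_gam_scal_le (F.m t) x
  kato_N k t _ x := m_kato (F.m t) (IsGlob.covN (F.m t) (F.m t).glob_riem k) x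
  kato_Q k t _ x := m_kato (F.m t) (IsGlob.covN (F.m t) (F.m t).glob_ric k) x
  dt_N k := by
    obtain ⟨K, hK, h⟩ := flow_dt_rm F E k
    refine ⟨K, hK, fun {a b N'} hs hd t ht x => ?_⟩
    rw [← deriv_of_diff hs.2.1 hd ht (flow_diff_rm F (hs.mem ht) k x)]
    exact h t (hs.mem ht) x
  dt_Q k := by
    obtain ⟨K, hK, h⟩ := flow_dt_rc F E k
    refine ⟨K, hK, fun {a b Q'} hs hd t ht x => ?_⟩
    rw [← deriv_of_diff hs.2.1 hd ht (flow_diff_rc F (hs.mem ht) k x)]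
    exact h t (hs.mem ht) x

end Crest.Agent.N207.AI

end
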