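import Crest.Agent.N207.AI.Par2

/-!
# Row 207 (helper44): functions and tensor fields on `J × M`
-/

set_option autoImplicit false
set_option linter.style.haveILetI false
set_option linter.unusedSectionVars false

open scoped ContDiff Manifold Topology
open Set Filter Bundle
open Crest.GeometryTopology.CoordMetric Crest.GeometryTopology.ChartCurvature
  Crest.GeometryTopology.MetricFamily
open Crest.Agent.R247 Crest.Agent.R202.Tens

noncomputable section

namespace Crest.Agent.N207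

variable {n k : ℕ} {M : Type*} [TopologicalSpace M] [ChartedSpace (En n) M]
  [IsManifold 𝓘(ℝ, En n) ∞ M] {J : Set ℝ} {m : ℝ → Met n M}

/-- the time derivative within `J` of a jointly smooth function -/
theorem st_derivWithin {U : Set (En n)} {f : ℝ → En n → ℝ} (hJ : UniqueDiffOn ℝ J)
    (hf : St f J U) : St (fun t y => derivWithin (fun s => f s y) J t) J U := by
  intro p hp
  have h1 : ContDiffWithinAt ℝ ∞
      (Function.uncurry fun (q : ℝ × En n) (s : ℝ) => f s q.2) ((J ×ˢ U) ×ˢ J) (p, p.1) := by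
    have h2 : ContDiffOn ℝ ∞ (fun r : (ℝ × En n) × ℝ => f r.2 r.1.2) ((J ×ˢ U) ×ˢ J) :=
      hf.comp (contDiffOn_snd.prodMk contDiffOn_fst.snd) fun r hr => ⟨hr.2, hr.1.2⟩
    exact h2 _ ⟨hp, hp.1⟩
  exact ContDiffWithinAt.fderivWithin_apply (m := ∞) (g := fun q : ℝ × En n => q.1)
    (k := fun _ => (1 : ℝ)) h1 contDiffWithinAt_fst contDiffWithinAt_const hJ
    (by simp) hp fun q hq => hq.1

theorem st_differentiableAt {U : Set (En n)} {f : ℝ → En n → ℝ} (hf : St f J U) {t : ℝ}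
    (ht : J ∈ 𝓝 t) {y : En n} (hy : y ∈ U) : DifferentiableAt ℝ (fun s => f s y) t :=
  ((st_tslice hf hy).contDiffAt ht).differentiableAt (by simp)

theorem SmTT.tdiff {U : Set (En n)} {T : ℝ → Tn n k} (hT : SmTT T J U) {t : ℝ}
    (ht : J ∈ 𝓝 t) {y : En n} (hy : y ∈ U) (I : Fin k → Fin n) :
    DifferentiableAt ℝ (fun s => T s y I) t :=
  st_differentiableAt (f := fun s y => T s y I) (hT I) ht hy

theorem smST_const {f : M → ℝ} (hf : Sm n f) (J : Set ℝ) : SmST n (fun _ => f) J := fun x =>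
  st_const (hf.inCh x)

theorem smST_time {c : ℝ → ℝ} (hc : ContDiffOn ℝ ∞ c J) : SmST n (fun t (_ : M) => c t) J :=
  fun _ => hc.comp contDiffOn_fst fun _ hp => hp.1

namespace SmST

variable {u v : ℝ → M → ℝ}

theorem st (hu : SmST n u J) (x : M) : St (fun t => Bo84.inCh n x (u t)) J (tg n x) := hu x

theorem slice (hu : SmST n u J) {t : ℝ} (ht : t ∈ J) : Sm n (u t) :=
  sm_of_inCh fun x => st_slice (hu.st x) ht

theorem tslice (hu : SmST n u J) (x : M) : ContDiffOn ℝ ∞ (fun t => u t x) J :=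
  (st_tslice (hu.st x) (ctr_mem x)).congr fun t _ => (inCh_ctr (u t) x).symm

theorem tdiff (hu : SmST n u J) {t : ℝ} (ht : J ∈ 𝓝 t) (x : M) :
    DifferentiableAt ℝ (fun s => u s x) t :=
  ((hu.tslice x).contDiffAt ht).differentiableAt (by simp)

theorem hasDerivAt (hu : SmST n u J) {t : ℝ} (ht : J ∈ 𝓝 t) (x : M) :
    HasDerivAt (fun s => u s x) (dt u t x) t := (hu.tdiff ht x).hasDerivAt

theorem mono (hu : SmST n u J) {J' : Set ℝ} (h : J' ⊆ J) : SmST n u J' := fun x =>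
  (hu x).mono (prod_mono h Subset.rfl)

theorem congr (hu : SmST n u J) (h : ∀ t ∈ J, v t = u t) : SmST n v J := fun x =>
  (hu x).congr fun p hp => by rw [h p.1 hp.1]

theorem add (hu : SmST n u J) (hv : SmST n v J) : SmST n (fun t x => u t x + v t x) J :=
  fun x => (hu x).add (hv x)

theorem sub (hu : SmST n u J) (hv : SmST n v J) : SmST n (fun t x => u t x - v t x) J :=
  fun x => (hu x).sub (hv x)

theorem mul (hu : SmST n u J) (hv : SmST n v J) : SmST n (fun t x => u t x * v t x) J :=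
  fun x => (hu x).mul (hv x)

theorem neg (hu : SmST n u J) : SmST n (fun t x => -u t x) J := fun x => (hu x).neg

theorem const_mul (c : ℝ) (hu : SmST n u J) : SmST n (fun t x => c * u t x) J := fun x =>
  contDiffOn_const.mul (hu x)

theorem pow (hu : SmST n u J) (j : ℕ) : SmST n (fun t x => u t x ^ j) J := fun x => (hu x).pow j

theorem sum {ι : Type*} (s : Finset ι) {F : ι → ℝ → M → ℝ} (h : ∀ a ∈ s, SmST n (F a) J) :
    SmST n (fun t x => ∑ a ∈ s, F a t x) J := fun x => ContDiffOn.sum fun a ha => h a ha x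

theorem comp {φ : ℝ → ℝ} {W : Set ℝ} (hφ : ContDiffOn ℝ ∞ φ W) (hW : ∀ t ∈ J, ∀ x, u t x ∈ W)
    (hu : SmST n u J) : SmST n (fun t x => φ (u t x)) J := fun x =>
  hφ.comp (hu x) fun p hp => hW p.1 hp.1 _

/-- change of the time parameter -/
theorem comp_time {J' : Set ℝ} {τ : ℝ → ℝ} (hτ : ContDiffOn ℝ ∞ τ J') (hm : ∀ t ∈ J', τ t ∈ J)
    (hu : SmST n u J) : SmST n (fun t => u (τ t)) J' := fun x =>
  (hu x).comp ((hτ.comp contDiffOn_fst fun _ hp => hp.1).prodMk contDiffOn_snd)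
    fun p hp => ⟨hm p.1 hp.1, hp.2⟩

theorem dt (hJ : IsOpen J) (hu : SmST n u J) : SmST n (dt u) J := fun x =>
  st_deriv hJ (hu.st x)

theorem dtWithin (hJ : UniqueDiffOn ℝ J) (hu : SmST n u J) :
    SmST n (fun t x => derivWithin (fun s => u s x) J t) J := fun x =>
  st_derivWithin hJ (hu.st x)

theorem gam (hm : SmFam m J) (hu : SmST n u J) (hv : SmST n v J) :
    SmST n (fun t => (m t).gam (u t) (v t)) J := fun x =>
  ((hm.cfam x).st_gam (hu.st x) (hv.st x)).congr fun p hp => (m p.1).gam_chart _ _ hp.2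

theorem lap (hm : SmFam m J) (hu : SmST n u J) : SmST n (fun t => (m t).lap (u t)) J := fun x =>
  ((hm.cfam x).st_lap (hu.st x)).congr fun p hp => (m p.1).lap_chart (hu.slice hp.1) hp.2

end SmST

theorem globST_const {T : CT n M k} (hT : IsGlob T) (J : Set ℝ) : GlobST (fun _ => T) J :=
  ⟨fun x => smTT_const (hT.sm x) J, fun _ _ => hT.compat⟩

namespace GlobST

variable {S T : ℝ → CT n M k} {u : ℝ → M → ℝ}

theorem slice (hT : GlobST T J) {t : ℝ} (ht : t ∈ J) : IsGlob (T t) :=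
  ⟨fun x => (hT.sm x).slice ht, hT.compat t ht⟩

theorem of_slice (h1 : ∀ x, SmTT (fun t => T t x) J (tg n x)) (h2 : ∀ t ∈ J, IsGlob (T t)) :
    GlobST T J := ⟨h1, fun t ht => (h2 t ht).compat⟩

theorem mono (hT : GlobST T J) {J' : Set ℝ} (h : J' ⊆ J) : GlobST T J' :=
  ⟨fun x => (hT.sm x).mono h Subset.rfl, fun t ht => hT.compat t (h ht)⟩

theorem congr (hT : GlobST T J) (h : ∀ t ∈ J, ∀ x, ∀ y ∈ tg n x, S t x y = T t x y) :
    GlobST S J :=
  of_slice (fun x => (hT.sm x).congr fun t ht => h t ht x) fun t ht =>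
    (hT.slice ht).congr (h t ht)

theorem add (hS : GlobST S J) (hT : GlobST T J) : GlobST (fun t => S t + T t) J :=
  ⟨fun x => (hS.sm x).add (hT.sm x), fun t ht => (hS.compat t ht).add (hT.compat t ht)⟩

theorem sub (hS : GlobST S J) (hT : GlobST T J) : GlobST (fun t => S t - T t) J :=
  ⟨fun x => (hS.sm x).sub (hT.sm x), fun t ht => (hS.compat t ht).sub (hT.compat t ht)⟩

theorem neg (hT : GlobST T J) : GlobST (fun t => -T t) J :=
  ⟨fun x => (hT.sm x).neg, fun t ht => (hT.compat t ht).neg⟩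

theorem smul (c : ℝ) (hT : GlobST T J) : GlobST (fun t => c • T t) J :=
  ⟨fun x => (hT.sm x).const_smul c, fun t ht => (hT.compat t ht).smul c⟩

theorem prmC (σ : Equiv.Perm (Fin k)) (hT : GlobST T J) : GlobST (fun t => prmC σ (T t)) J :=
  ⟨fun x _ => hT.sm x _, fun t ht => (hT.compat t ht).prmC σ⟩

theorem smC (hu : SmST n u J) (hT : GlobST T J) : GlobST (fun t => smC (u t) (T t)) J :=
  ⟨fun x => SmTT.smT (hu.st x) (hT.sm x), fun t ht => (hT.compat t ht).smC _⟩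

theorem fnC (hu : SmST n u J) : GlobST (fun t => fnC n (u t)) J :=
  ⟨fun x => SmTT.fnT (hu.st x), fun _ _ => compat_fnC _⟩

theorem dC (hu : SmST n u J) : GlobST (fun t => dC n (u t)) J :=
  of_slice (fun x => SmTT.dT (isOpen_tg x) (hu.st x)) fun _ ht => IsGlob.dC (hu.slice ht)

theorem valC {T : ℝ → CT n M 0} (hT : GlobST T J) : SmST n (fun t => valC (T t)) J := fun x =>
  (hT.sm x ![]).congr fun p hp => valC_chart (hT.compat p.1 hp.1) hp.2

theorem smTT_plC {Ψ : En n → M} {U : Set (En n)} (hP : Par Ψ U) (hT : GlobST T J) :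
    SmTT (fun t => plC Ψ (T t)) J U := fun I =>
  hP.st_of_dom (f := fun t y => plC Ψ (T t) y I) fun x =>
    (((hT.sm x).pullT (hP.isOpen_dom x) (hP.contDiffOn_rd x) fun _ hy => Par.rd_mem hy).congr
      fun t ht _ hy => hP.plC_eq (hT.compat t ht) hy) I

variable (hm : SmFam m J)
include hm

theorem cov (hT : GlobST T J) : GlobST (fun t => (m t).cov (T t)) J :=
  of_slice (fun x => (hT.sm x).cov (hm.cfam x)) fun t ht => (hT.slice ht).cov (m t)

theorem covN (hT : GlobST T J) (j : ℕ) : GlobST (fun t => (m t).covN (T t) j) J :=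
  of_slice (fun x => (hT.sm x).covN (hm.cfam x) j) fun t ht => (hT.slice ht).covN (m t) j

theorem tr {T : ℝ → CT n M (k + 2)} (hT : GlobST T J) : GlobST (fun t => (m t).tr (T t)) J :=
  of_slice (fun x => (hT.sm x).trT (hm.cfam x)) fun t ht => (hT.slice ht).tr (m t)

theorem div {T : ℝ → CT n M (k + 1)} (hT : GlobST T J) : GlobST (fun t => (m t).div (T t)) J :=
  (hT.cov hm).tr hm

theorem lapC (hT : GlobST T J) : GlobST (fun t => (m t).lapC (T t)) J :=
  ((hT.cov hm).cov hm).tr hm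

theorem con {T : ℝ → CT n M (k + 1)} (hS : GlobST S J) (hT : GlobST T J) :
    GlobST (fun t => (m t).con (S t) (T t)) J :=
  of_slice (fun x => (hS.sm x).conT (hm.cfam x) (hT.sm x)) fun t ht =>
    (hS.slice ht).con (m t) (hT.slice ht)

theorem hess (hu : SmST n u J) : GlobST (fun t => (m t).hess (u t)) J := (dC hu).cov hm

theorem ip (hS : GlobST S J) (hT : GlobST T J) : SmST n (fun t => (m t).ip (S t) (T t)) J :=
  fun x => ((hm.cfam x).st_ip (hS.sm x) (hT.sm x)).congr fun p hp =>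
    (m p.1).ip_chart (hS.compat p.1 hp.1) (hT.compat p.1 hp.1) hp.2

theorem nsq (hT : GlobST T J) : SmST n (fun t => (m t).nsq (T t)) J := hT.ip hm hT

end GlobST

namespace SmFam

variable (hm : SmFam m J)
include hm

theorem met : GlobST (fun t => (m t).met) J :=
  ⟨fun x => (hm.cfam x).smTT_matT, fun t _ => (m t).glob_met.compat⟩

theorem ric : GlobST (fun t => (m t).ric) J :=
  ⟨fun x => (hm.cfam x).smTT_ricT, fun t _ => (m t).glob_ric.compat⟩

theorem riem : GlobST (fun t => (m t).riem) J :=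
  ⟨fun x => (hm.cfam x).smTT_rmT, fun t _ => (m t).glob_riem.compat⟩

theorem scal : SmST n (fun t => (m t).scal) J := fun x =>
  (hm.cfam x).st_scal.congr fun p hp => (m p.1).scal_chart hp.2

theorem rm (j : ℕ) : SmST n (fun t => (m t).rm j) J := (hm.riem.covN hm j).nsq hm

theorem rc (j : ℕ) : SmST n (fun t => (m t).rc j) J := (hm.ric.covN hm j).nsq hm

theorem pf : SmST n (fun t => (m t).pf) J :=
  ((hm.rm 0).sub ((hm.rc 0).const_mul 4)).add (hm.scal.pow 2)

theorem df {u : ℝ → M → ℝ} (hu : SmST n u J) (j : ℕ) : SmST n (fun t => (m t).df j (u t)) J :=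
  ((GlobST.fnC hu).covN hm j).nsq hm

theorem box (hJ : IsOpen J) {u : ℝ → M → ℝ} (hu : SmST n u J) : SmST n (box m u) J :=
  (hu.dt hJ).sub (hu.lap hm)

theorem cbox (hJ : IsOpen J) {u : ℝ → M → ℝ} (hu : SmST n u J) : SmST n (cbox m u) J :=
  ((hu.dt hJ).neg.sub (hu.lap hm)).add (hm.scal.mul hu)

/-- change of the time parameter -/
theorem comp_time {J' : Set ℝ} {τ : ℝ → ℝ} (hτ : ContDiffOn ℝ ∞ τ J')
    (hτJ : ∀ t ∈ J', τ t ∈ J) : SmFam (fun t => m (τ t)) J' := fun x i j =>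
  (hm x i j).comp ((hτ.comp contDiffOn_fst fun _ hp => hp.1).prodMk contDiffOn_snd)
    fun p hp => ⟨hτJ p.1 hp.1, hp.2⟩

end SmFam

/-! ### time derivatives of tensor fields -/

/-- the plain time derivative of a tensor field -/
def dtC (T : ℝ → CT n M k) (t : ℝ) : CT n M k := fun x => dtT (fun s => T s x) t

section Time

variable {G G' : ℝ → MetricField n} {Φ : En n → En n} {V W : Set (En n)} {T T' : ℝ → Tn n k}
  {t : ℝ}

theorem Rel.dtT (ht : J ∈ 𝓝 t) (h : ∀ s ∈ J, Rel Φ V (T' s) (T s)) (hm : ∀ y ∈ V, Φ y ∈ W)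
    (hT : SmTT T J W) : Rel Φ V (dtT T' t) (dtT T t) := fun y hy =>
  (AI.dtT_congr (mem_of_superset ht fun s hs => h s hs y hy)).trans
    (AI.dtT_pullT Φ (hT.tdiff ht (hm y hy)))

theorem Rel.DtT (p : Pull (G' t) (G t) Φ V W) (ht : J ∈ 𝓝 t)
    (h : ∀ s ∈ J, Rel Φ V (T' s) (T s)) (hT : SmTT T J W) :
    Rel Φ V (DtT G' T' t) (DtT G T t) := fun y hy =>
  (AI.DtT_congr (mem_of_superset ht fun s hs => h s hs y hy)).trans
    (AI.DtT_pullT p hy (hT.tdiff ht (p.maps y hy)))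

theorem Rel.boxT (p : Pull (G' t) (G t) Φ V W) (ht : J ∈ 𝓝 t)
    (h : ∀ s ∈ J, Rel Φ V (T' s) (T s)) (hT : SmTT T J W) :
    Rel Φ V (boxT G' T' t) (boxT G T t) :=
  (Rel.DtT p ht h hT).sub ((h t (mem_of_mem_nhds ht)).lapT p (hT.slice (mem_of_mem_nhds ht)))

end Time

theorem boxC_eq (m : ℝ → Met n M) (T : ℝ → CT n M k) (t : ℝ) :
    boxC m T t = DtC m T t - (m t).lapC (T t) := rfl

namespace GlobST

variable {T : ℝ → CT n M k} {t : ℝ}

theorem compat_dtC (hT : GlobST T J) (ht : J ∈ 𝓝 t) : Compat (dtC T t) := fun x₀ x₁ =>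
  Rel.dtT ht (fun s hs => (hT.compat s hs).rel x₀ x₁) (fun _ hy => Bo84.trans_mem hy) (hT.sm x₁)

theorem compat_DtC (hT : GlobST T J) (ht : J ∈ 𝓝 t) : Compat (DtC m T t) := fun x₀ x₁ =>
  Rel.DtT (G' := fun s => (m s).G x₀) (G := fun s => (m s).G x₁) ((m t).pull_trans x₀ x₁) ht
    (fun s hs => (hT.compat s hs).rel x₀ x₁) (hT.sm x₁)

theorem dtC (hJ : IsOpen J) (hT : GlobST T J) : GlobST (dtC T) J :=
  ⟨fun x => (hT.sm x).dtT hJ, fun _ ht => hT.compat_dtC (hJ.mem_nhds ht)⟩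

theorem DtC (hm : SmFam m J) (hJ : IsOpen J) (hT : GlobST T J) : GlobST (DtC m T) J :=
  ⟨fun x => (hT.sm x).DtT (hm.cfam x) hJ, fun _ ht => hT.compat_DtC (hJ.mem_nhds ht)⟩

theorem boxC (hm : SmFam m J) (hJ : IsOpen J) (hT : GlobST T J) : GlobST (boxC m T) J :=
  (hT.DtC hm hJ).sub (hT.lapC hm)

variable {Ψ : En n → M} {U : Set (En n)} {y : En n}

theorem par_dtC (hP : Par Ψ U) (hT : GlobST T J) (ht : J ∈ 𝓝 t) (hy : y ∈ U) :
    plC Ψ (N207.dtC T t) y = dtT (fun s => plC Ψ (T s)) t y :=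
  (Rel.dtT ht (fun s hs => hP.rel (hT.compat s hs) (Ψ y)) (fun _ hz => Par.rd_mem hz)
    (hT.sm _) y (Par.mem_dom_self hy)).symm

theorem par_DtC (hP : Par Ψ U) (hT : GlobST T J) (ht : J ∈ 𝓝 t) (hy : y ∈ U) :
    plC Ψ (N207.DtC m T t) y = DtT (fun s => (m s).pm Ψ) (fun s => plC Ψ (T s)) t y :=
  (Rel.DtT (G' := fun s => (m s).pm Ψ) (G := fun s => (m s).G (Ψ y)) (hP.pull (m t) (Ψ y)) ht
    (fun s hs => hP.rel (hT.compat s hs) (Ψ y)) (hT.sm _) y (Par.mem_dom_self hy)).symm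

theorem par_boxC (hP : Par Ψ U) (hT : GlobST T J) (ht : J ∈ 𝓝 t) (hy : y ∈ U) :
    plC Ψ (N207.boxC m T t) y = boxT (fun s => (m s).pm Ψ) (fun s => plC Ψ (T s)) t y :=
  (Rel.boxT (G' := fun s => (m s).pm Ψ) (G := fun s => (m s).G (Ψ y)) (hP.pull (m t) (Ψ y)) ht
    (fun s hs => hP.rel (hT.compat s hs) (Ψ y)) (hT.sm _) y (Par.mem_dom_self hy)).symm

end GlobST

theorem dt_chart (u : ℝ → M → ℝ) (t : ℝ) (x : M) (y : En n) :
    Bo84.inCh n x (dt u t) y = deriv (fun s => Bo84.inCh n x (u s) y) t := rfl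

theorem valC_dtC (T : ℝ → CT n M 0) (t : ℝ) : valC (dtC T t) = dt (fun s => valC (T s)) t := rfl

theorem valC_DtC (T : ℝ → CT n M 0) (t : ℝ) :
    valC (DtC m T t) = dt (fun s => valC (T s)) t := by
  funext x
  simp only [valC, DtC, DtT, Finset.univ_eq_empty, Finset.sum_empty, add_zero]
  rfl

theorem box_chart {u : ℝ → M → ℝ} {t : ℝ} (hu : Sm n (u t)) {x : M} {y : En n}
    (hy : y ∈ tg n x) : Bo84.inCh n x (box m u t) y =
      deriv (fun s => Bo84.inCh n x (u s) y) t -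
        laplaceBeltrami ((m t).G x) (Bo84.inCh n x (u t)) y := by
  rw [← (m t).lap_chart hu hy]; rfl

/-! ### product rules on `M` -/

namespace Met

variable (g : Met n M) {S T : CT n M k}

theorem inCh_ip_ev (hS : Compat S) (hT : Compat T) {x : M} {y : En n} (hy : y ∈ tg n x) :
    Bo84.inCh n x (g.ip S T) =ᶠ[𝓝 y] N207.ip (g.G x) (S x) (T x) :=
  ev_of_on (isOpen_tg x) hy fun _ hz => g.ip_chart hS hT hz

theorem dC_ip (hS : IsGlob S) (hT : IsGlob T) {x : M} {y : En n} (hy : y ∈ tg n x) :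
    dC n (g.ip S T) x y = (g.con T (g.cov S) + g.con S (g.cov T)) x y :=
  (dT_congr (g.inCh_ip_ev hS.compat hT.compat hy)).eq_of_nhds.trans
    (dT_ip (g.isRiem x) hy ((hS.sm x).dAt (isOpen_tg x) hy) ((hT.sm x).dAt (isOpen_tg x) hy))

theorem lap_ip (hS : IsGlob S) (hT : IsGlob T) (x : M) : g.lap (g.ip S T) x =
    g.ip (g.lapC S) T x + 2 * g.ip (g.cov S) (g.cov T) x + g.ip S (g.lapC T) x :=
  (lapB_congr EventuallyEq.rfl (g.inCh_ip_ev hS.compat hT.compat (ctr_mem x))).eq_of_nhds.trans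
    (lapB_ip (g.isRiem x) (ctr_mem x) (hS.sm x) (hT.sm x))

theorem lap_nsq (hT : IsGlob T) (x : M) :
    g.lap (g.nsq T) x = 2 * g.ip (g.lapC T) T x + 2 * g.nsq (g.cov T) x :=
  (lapB_congr EventuallyEq.rfl (g.inCh_ip_ev hT.compat hT.compat (ctr_mem x))).eq_of_nhds.trans
    (lapB_nsq (g.isRiem x) (ctr_mem x) (hT.sm x))

theorem valC_div_con {W : CT n M (k + 1)} (hS : IsGlob S) (hW : IsGlob W) (x : M) :
    valC (g.div (g.con S W)) x = g.ip (g.cov S) W x + g.ip S (g.div W) x :=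
  divT_conT (g.isRiem x) (ctr_mem x) ((hS.sm x).dAt (isOpen_tg x) (ctr_mem x))
    ((hW.sm x).dAt (isOpen_tg x) (ctr_mem x))

theorem valC_div_smC {w : CT n M 1} {f : M → ℝ} (hf : Sm n f) (hw : IsGlob w) (x : M) :
    valC (g.div (smC f w)) x = g.ip (dC n f) w x + f x * valC (g.div w) x := by
  rw [← inCh_ctr (n := n) f x]
  exact divT_smT_one (dAt (hf.inCh x) (isOpen_tg x) (ctr_mem x))
    ((hw.sm x).dAt (isOpen_tg x) (ctr_mem x))

theorem cov_met {x : M} {y : En n} (hy : y ∈ tg n x) : g.cov g.met x y = 0 :=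
  N207.cov_met (g.isRiem x) hy

end Met

end Crest.Agent.N207

end
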